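import Vale.Agent.P261Z.PC.Defs
import Vale.Agent.P261Z.S.Cx

/-!
# P261, block P: the data on the big perfect ring

* `IgD`: Igusa levels `T j`, traces, retractions and torsors (`RT`), with `v`-adic losses;
* `FlD`: the filtration;
* `NF`: what is used of the complex `N`.
-/

noncomputable section

namespace P261.P

open scoped TensorProduct
open P261.PC P261.Cs

variable (p : ℕ) [hp : Fact p.Prime] {R AA : Type} [CommRing R] [CommRing AA] [Algebra R AA]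

/-- the elements whose `p ^ n`-th power lies in `T` -/
def rtA [Ch p AA] (n : ℕ) (T : Subalgebra R AA) : Subalgebra R AA where
  carrier := {x | x ^ p ^ n ∈ T}
  mul_mem' := fun {a b} ha hb => by
    show (a * b) ^ p ^ n ∈ T
    rw [mul_pow]
    exact T.mul_mem ha hb
  add_mem' := fun {a b} ha hb => by
    show (a + b) ^ p ^ n ∈ T
    rw [add_pow_pp]
    exact T.add_mem ha hb
  algebraMap_mem' r := T.pow_mem (T.algebraMap_mem r) _

/-- the elements whose `p ^ n`-th power lies in `P` -/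
def rtM [Ch p AA] (n : ℕ) (P : Submodule R AA) : Submodule R AA where
  carrier := {x | x ^ p ^ n ∈ P}
  add_mem' := fun {a b} ha hb => by
    show (a + b) ^ p ^ n ∈ P
    rw [add_pow_pp]
    exact P.add_mem ha hb
  zero_mem' := by
    show (0 : AA) ^ p ^ n ∈ P
    rw [zero_pow (pow_pos p_pos n).ne']
    exact P.zero_mem
  smul_mem' := fun r a ha => by
    show (r • a) ^ p ^ n ∈ P
    rw [smul_pow]
    exact P.smul_mem _ ha

variable {p}

theorem mem_rtA [Ch p AA] {n : ℕ} {T : Subalgebra R AA} {x : AA} :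
    x ∈ rtA p n T ↔ x ^ p ^ n ∈ T := Iff.rfl

theorem mem_rtM [Ch p AA] {n : ℕ} {P : Submodule R AA} {x : AA} :
    x ∈ rtM p n P ↔ x ^ p ^ n ∈ P := Iff.rfl

variable [Algebra (ZMod p) R] [Algebra (ZMod p) AA] [IsScalarTower (ZMod p) R AA]

variable (p) in
/-- a ring map as a linear map over the prime field -/
def lin (f : AA →+* AA) : AA →ₗ[ZMod p] AA := f.toAddMonoidHom.toZModLinearMap p

omit [Algebra R AA] [Algebra (ZMod p) R] [IsScalarTower (ZMod p) R AA] in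
@[simp] theorem lin_apply (f : AA →+* AA) (x : AA) : lin p f x = f x := rfl

/-- the inclusion `S ⊗ T → S ⊗ AA` -/
def inc (S : Type) [CommRing S] [Algebra (ZMod p) S] (T : Subalgebra R AA) :
    S ⊗[ZMod p] T →ₗ[ZMod p] S ⊗[ZMod p] AA :=
  LinearMap.lTensor S (T.val.toLinearMap.restrictScalars (ZMod p))

/-- `al ∘ f = (1 ⊗ f) ∘ al'` on `T` -/
def Cmp {S : Type} [CommRing S] [Algebra (ZMod p) S] {T : Subalgebra R AA} (f : AA →+* AA)
    (al al' : T →ₐ[ZMod p] S ⊗[ZMod p] T) : Prop :=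
  ∀ x y : T, (y : AA) = f x → inc S T (al y) = (lin p f).lTensor S (inc S T (al' x))

variable (p) in
/-- the elements of `T` with a pole of order at most `N` -/
def pole (v : R) (N : ℕ) (T : Subalgebra R AA) : Submodule (ZMod p) T :=
  ((Subalgebra.toSubmodule (integralClosure R AA)).comap
    (LinearMap.mulLeft R (algebraMap R AA v ^ N) ∘ₗ T.val.toLinearMap)).restrictScalars (ZMod p)

theorem mem_pole {v : R} {N : ℕ} {T : Subalgebra R AA} {x : T} :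
    x ∈ pole p v N T ↔ IsIntegral R (algebraMap R AA v ^ N * x) := Iff.rfl

/-- The points killed by `p ^ M` act on the ring `T`, trivially on `T0`; `T1` are the invariants of
the points killed by `p ^ A`, `gam` is a total integral; poles grow by at most `N`. -/
structure RT [Pf p AA] (H : GF p) {G : Type} (Φ : G → AA →+* AA) (a : ℕ → AA →+* AA) (v : R)
    (T0 T1 T : Subalgebra R AA) (h M A N : ℕ) : Type 1 where
  /-- the action of a point -/
  al : ∀ {S : Type} [CommRing S] [Algebra (ZMod p) S], H.Pt S → T →ₐ[ZMod p] S ⊗[ZMod p] T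
  nat : ∀ {S S' : Type} [CommRing S] [Algebra (ZMod p) S] [CommRing S'] [Algebra (ZMod p) S']
    (f : S →ₐ[ZMod p] S') (τ : H.Pt S), p ^ M • τ = 0 → ∀ x,
    f.toLinearMap.rTensor T (al τ x) = al (H.map f τ) x
  zero : ∀ {S : Type} [CommRing S] [Algebra (ZMod p) S] x, al (0 : H.Pt S) x = 1 ⊗ₜ x
  add : ∀ {S : Type} [CommRing S] [Algebra (ZMod p) S] (τ τ' : H.Pt S), p ^ M • τ = 0 →
    p ^ M • τ' = 0 → ∀ x, al (τ + τ') x = (al τ).toLinearMap.liftBaseChange S (al τ' x)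
  bot : ∀ {S : Type} [CommRing S] [Algebra (ZMod p) S] (τ : H.Pt S), p ^ M • τ = 0 →
    ∀ x : T, (x : AA) ∈ T0 → al τ x = 1 ⊗ₜ x
  loss : ∀ {S : Type} [CommRing S] [Algebra (ZMod p) S] (τ : H.Pt S), p ^ M • τ = 0 →
    ∀ x : T, IsIntegral R (x : AA) → al τ x ∈ (pole p v N T).baseChange S
  eqv : ∀ {S : Type} [CommRing S] [Algebra (ZMod p) S] (τ : H.Pt S), p ^ M • τ = 0 →
    ∀ g, Cmp (Φ g) (al τ) (al τ)
  fro : ∀ {S : Type} [CommRing S] [Algebra (ZMod p) S] (τ : H.Pt S), p ^ M • τ = 0 →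
    Cmp (fr p AA ^ h) (al τ) (al (p • τ))
  cen : ∀ {S : Type} [CommRing S] [Algebra (ZMod p) S] (τ : H.Pt S), p ^ M • τ = 0 →
    ∀ s, s % p = 1 → Cmp (a s) (al τ) (al (s • τ))
  /-- the total integral -/
  gam : H.O A 1 →ₗ[ZMod p] T
  gam_one : gam 1 = 1
  gam_loss : ∀ f, gam f ∈ pole p v N T
  gam_eqv : ∀ {S : Type} [CommRing S] [Algebra (ZMod p) S] (τ : H.Pt S), p ^ A • τ = 0 →
    ∀ f, al τ (gam f) = gam.lTensor S (H.sh A τ f)
  fix : ∀ {S : Type} [CommRing S] [Algebra (ZMod p) S] (τ : H.Pt S), p ^ A • τ = 0 →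
    ∀ x : T, (x : AA) ∈ T1 → al τ x = 1 ⊗ₜ x
  inv : ∀ x : T, al (H.u A 1 0) x = 1 ⊗ₜ x → (x : AA) ∈ T1

variable (p) in
/-- The Igusa tower inside the perfect ring `AA`. Level `L`, Igusa level `j` is
`rtA p (h * L) (T j)`; integral means integral over `R`; poles grow by at most `D ^ (j + 1)`. -/
structure IgD (h : ℕ) (v : R) (AA : Type) [CommRing AA] [Algebra R AA] [Algebra (ZMod p) AA]
    [IsScalarTower (ZMod p) R AA] [Pf p AA] {G : Type} [Group G] (φ : G → R →+* R)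
    (Φ : G →* (AA →+* AA)) (Γ : Type) [Group Γ] (H : GF p) : Type 1 where
  inj : Function.Injective (algebraMap R AA)
  /-- the inverse of `v` -/
  vi : AA
  v_vi : algebraMap R AA v * vi = 1
  loc : ∀ x : AA, ∃ N : ℕ, IsIntegral R (algebraMap R AA v ^ N * x)
  semi : ∀ g r, Φ g (algebraMap R AA r) = algebraMap R AA (φ g r)
  /-- the action of `Γ` -/
  γ : Γ →* (AA →ₐ[R] AA)
  comm : ∀ g δ x, Φ g (γ δ x) = γ δ (Φ g x)
  /-- the congruence subgroups -/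
  Gs : ℕ → Subgroup Γ
  Gs_anti : Antitone Gs
  Gs_normal : ∀ j, (Gs j).Normal
  Gs_fin : ∀ j j', j ≤ j' → ((Gs j').subgroupOf (Gs j)).FiniteIndex
  /-- level `0`, Igusa level `j` -/
  T : ℕ → Subalgebra R AA
  T_mono : Monotone T
  vi_mem : vi ∈ T 0
  T_Φ : ∀ j g, ∀ x ∈ T j, Φ g x ∈ T j
  T_γ : ∀ j δ, ∀ x ∈ T j, γ δ x ∈ T j
  T_fix : ∀ j, ∀ δ ∈ Gs j, ∀ x ∈ T j, γ δ x = x
  T_inv : ∀ j j', j ≤ j' → ∀ x ∈ T j', (∀ δ ∈ Gs j, γ δ x = x) → x ∈ T j
  T_zero : ∀ x ∈ T 0, IsIntegral R x → ∃ r, algebraMap R AA r = x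
  T_exh : ∀ x : AA, ∃ n j, x ^ p ^ n ∈ T j
  /-- the base of the losses -/
  D : ℕ
  tr : ∀ j j', j ≤ j' → ∃ t ∈ T j', IsIntegral R t ∧ ∃ N ≤ D ^ (j' + 1),
    ∑ᶠ δ : Gs j ⧸ (Gs j').subgroupOf (Gs j), γ (δ.out : Gs j) t = algebraMap R AA v ^ N
  /-- the central scalars -/
  a : ℕ → Γ
  a_comm : ∀ s δ, a s * δ = δ * a s
  a_one : a 1 = 1
  a_mul : ∀ s t, s % p = 1 → t % p = 1 → a (s * t) = a s * a t
  a_cong : ∀ s t j, s % p = 1 → t % p = 1 → s ≡ t [MOD p ^ j] → (a s)⁻¹ * a t ∈ Gs j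
  /-- the first good Igusa level -/
  c0 : ℕ
  ret : ∀ j, c0 ≤ j → ∀ n, ∃ π : rtA p n (T j) →+ AA, π 1 = 1 ∧ (∀ x, π x ∈ T j) ∧
    (∀ y x : rtA p n (T j), (y : AA) ∈ T j → π (y * x) = y * π x) ∧
    ∀ x : rtA p n (T j), IsIntegral R (x : AA) →
      IsIntegral R (algebraMap R AA v ^ D ^ (j + 1) * π x)
  fin : ∀ m, Module.Finite (ZMod p) (H.O m 1)
  td : ∀ j M A, A ≤ M → M + c0 ≤ j → Nonempty (RT H (fun g => Φ g) (fun s => (γ (a s) : AA →+* AA)) v
    (T j) (rtA p (h * (M - A)) (T j)) (rtA p (h * M) (T j)) h M A (D ^ (j + 1)))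

variable (p) in
/-- The filtration; `vi` is the inverse of `v`. -/
structure FlD (v : R) (vi : AA) {G Γ : Type} (Φ : G → AA →+* AA) (γ : Γ → AA →ₐ[R] AA) where
  /-- the filtration -/
  b : Fil p AA
  int : ∀ x : AA, IsIntegral R x → x ∈ b.F 0
  /-- the weight of `1 / v` -/
  e : ℝ
  e_nonneg : 0 ≤ e
  vi_mem : vi ∈ b.F e
  b_Φ : ∀ g β, ∀ x ∈ b.F β, Φ g x ∈ b.F β
  b_γ : ∀ δ β, ∀ x ∈ b.F β, γ δ x ∈ b.F β
  bd : ∀ β, ∃ N : ℕ, ∀ x ∈ b.F β, IsIntegral R (algebraMap R AA v ^ N * x)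
  gen : ∃ s : Finset AA, ∀ n, ∃ C : ℕ, ∀ T : Subring AA, vi ∈ T → (∀ x ∈ s, x ^ p ^ n ∈ T) →
    ∀ β, ∀ z ∈ b.F β, algebraMap R AA v ^ C * z ∈
      Submodule.span (integralClosure R AA) {y | y ∈ T ∧ y ∈ b.F (β + C)}

/-- the steps of the filtration as modules -/
def FlD.M {v : R} {vi : AA} {G Γ : Type} {Φ : G → AA →+* AA} {γ : Γ → AA →ₐ[R] AA}
    (F : FlD p v vi Φ γ) (β : ℝ) : Submodule R AA :=
  { F.b.F β with
    smul_mem' := fun r x hx => by
      rw [Algebra.smul_def]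
      exact Fil.mul_le (F.int _ isIntegral_algebraMap) hx (zero_add β).le }

/-- stable submodules -/
def Stb {G : Type} (Φ : G → AA →+* AA) (P : Submodule R AA) : Prop := ∀ g, ∀ x ∈ P, Φ g x ∈ P

variable (p R) in
/-- What is used of the complex `C = N(AA)`: the pieces `NS P`, the operators `op E` at the first
vertex, and the Frobenius map. -/
structure NF [Ch p AA] {G : Type} (Φ : G → AA →+* AA) (C : Cos.{0} (ZMod p)) where
  /-- the piece given by a submodule -/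
  NS : Submodule R AA → ∀ n, Submodule (ZMod p) (C.X n)
  /-- linear maps act at the first vertex -/
  op : ∀ n, Module.End R AA →+* Module.End (ZMod p) (C.X n)
  NS_comap : ∀ P E n x, op n E x ∈ NS P n ↔ x ∈ NS (P.comap E) n
  NS_mono : ∀ P P' n, P ≤ P' → NS P n ≤ NS P' n
  NS_inf : ∀ P P' n, NS P n ⊓ NS P' n ≤ NS (P ⊓ P') n
  NS_bot : ∀ n, NS ⊥ n = ⊥
  NS_top : ∀ n, NS ⊤ n = ⊤
  NS_sup : ∀ P : ℕ → Submodule R AA, Monotone P → (∀ i, Stb Φ (P i)) → (∀ a, ∃ i, a ∈ P i) →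
    ∀ n x, ∃ i, x ∈ NS (P i) n
  NS_map : ∀ P, Stb Φ P → ∀ {m n : ℕ} (f : Fin (m + 1) → Fin (n + 1)), ∀ x ∈ NS P m,
    C.map f x ∈ NS P n
  op_map : ∀ P, Stb Φ P → ∀ E : Module.End R AA, (∀ g, ∀ y ∈ P, E (Φ g y) = Φ g (E y)) →
    ∀ {m n : ℕ} (f : Fin (m + 1) → Fin (n + 1)), ∀ x ∈ NS P m, op n E (C.map f x) = C.map f (op m E x)
  /-- the map induced by `x ↦ x ^ p` -/
  fr : Hom C C
  fr_bij : ∀ n, Function.Bijective (fr.app n)
  fr_NS : ∀ P n x, fr.app n x ∈ NS P n ↔ x ∈ NS (rtM p 1 P) n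
  fr_op : ∀ E E' : Module.End R AA, (∀ y, E (y ^ p) = E' y ^ p) → ∀ n x,
    op n E (fr.app n x) = fr.app n (op n E' x)

variable [Pf p AA] {h : ℕ} {v : R} {G : Type} [Group G] {φ : G → R →+* R} {Φ : G →* (AA →+* AA)}
  {Γ : Type} [Group Γ] {H : GF p} {C : Cos.{0} (ZMod p)}

/-- the complex `N(AA)` with the filtration and the central scalars -/
def fa (I : IgD p h v AA φ Φ Γ H) (F : FlD p v I.vi (fun g => Φ g) fun δ => I.γ δ)
    (N : NF p R (fun g => Φ g) C) : FA.{0} p (ZMod p) where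
  C := C
  F β := ⟨N.NS (F.M β), fun f _ hx => N.NS_map _ (fun g => F.b_Φ g β) f _ hx⟩
  mono hβ n := N.NS_mono _ _ n fun _ hx => Fil.le hx hβ
  act s := ⟨fun n => N.op n (I.γ (I.a s)).toLinearMap, fun f x =>
    N.op_map ⊤ (fun _ _ _ => trivial) _ (fun g y _ => (I.comm g _ y).symm) f x
      (by rw [N.NS_top]; trivial)⟩
  act_F s β n x hx := (N.NS_comap _ _ n x).2 (N.NS_mono _ _ n (fun y hy => F.b_γ _ β y hy) hx)
  act_one n x := by
    show N.op n _ x = x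
    rw [I.a_one, map_one]
    exact LinearMap.congr_fun (N.op n).map_one x
  act_mul s t hs ht n x := by
    show N.op n _ x = N.op n _ (N.op n _ x)
    rw [I.a_mul s t hs ht, map_mul I.γ, ← Module.End.mul_apply, ← map_mul (N.op n)]
    rfl

/-- `s` is an invariant generator of the line with cocycle `l`, `s'` is its inverse -/
def IgD.Gen (I : IgD p h v AA φ Φ Γ H) (l : G → R) (s s' : AA) : Prop :=
  (∃ j, s ∈ I.T j ∧ s' ∈ I.T j) ∧ s * s' = 1 ∧ ∀ g, s = algebraMap R AA (l g) * Φ g s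

/-- the inclusions `R x → R x / v ^ A` vanish on the cohomology of `N` -/
def NF.NV (N : NF p R (fun g => Φ g) C) (vi x : AA) : Prop :=
  (∀ y, C.d 0 y = 0 → y = 0) ∧ ∀ n, ∃ A : ℕ, ∀ y ∈ N.NS (Submodule.span R {x}) (n + 1),
    C.d _ y = 0 → ∃ z ∈ N.NS (Submodule.span R {x * vi ^ A}) n, C.d n z = y

end P261.P
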