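import Vale.Agent.P261Z.P.Defs

/-!
# P261, block P: statements of the steps from `IgD` to the abstract core and back
-/

noncomputable section

namespace P261.P

open scoped TensorProduct
open P261.PC P261.Cs

variable (p : ℕ) [hp : Fact p.Prime]

/-- the part of `T` which lies in `P` -/
def sub {R AA : Type} [CommRing R] [CommRing AA] [Algebra R AA] [Algebra (ZMod p) R]
    [Algebra (ZMod p) AA] [IsScalarTower (ZMod p) R AA] (T : Subalgebra R AA)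
    (P : Submodule R AA) : Submodule (ZMod p) T :=
  (P.comap T.val.toLinearMap).restrictScalars (ZMod p)

/-- approximate roots of `1 + p ^ (e + m)` -/
def APX : Prop := ∀ m e j : ℕ, 2 ≤ e → ∃ s : ℕ, s % p ^ e = 1 ∧ s ^ p ^ m ≡ 1 + p ^ (e + m) [MOD p ^ j]

/-- linear retractions onto the finite levels -/
def RETR : Prop := ∀ (R AA : Type) [CommRing R] [CommRing AA] [Algebra R AA] [Algebra (ZMod p) R]
  [Algebra (ZMod p) AA] [IsScalarTower (ZMod p) R AA] [Pf p AA] (h : ℕ) (v : R) (G : Type) [Group G]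
  (φ : G → R →+* R) (Φ : G →* (AA →+* AA)) (Γ : Type) [Group Γ] (H : GF p)
  (I : IgD p h v AA φ Φ Γ H) (j n : ℕ), I.c0 ≤ j →
    ∃ e : AA →ₗ[R] rtA p n (I.T j), ∀ x : rtA p n (I.T j), e x = x

/-- decomposition of the filtration at a finite level -/
def DEC : Prop := ∀ (R AA : Type) [CommRing R] [CommRing AA] [Algebra R AA] [Algebra (ZMod p) R]
  [Algebra (ZMod p) AA] [IsScalarTower (ZMod p) R AA] [Pf p AA] (h : ℕ) (v : R) (G : Type) [Group G]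
  (φ : G → R →+* R) (Φ : G →* (AA →+* AA)) (Γ : Type) [Group Γ] (H : GF p)
  (I : IgD p h v AA φ Φ Γ H) (F : FlD p v I.vi (fun g => Φ g) fun δ => I.γ δ),
    ∃ j0 C : ℕ, I.c0 ≤ j0 ∧ ∀ j, j0 ≤ j → ∀ n β, ∀ z ∈ rtA p n (I.T j), z ∈ F.b.F β →
      algebraMap R AA v ^ (C + I.D ^ (j + 1)) * z ∈ AddSubgroup.closure
        {x | ∃ o ∈ rtA p n (I.T j), IsIntegral R o ∧ ∃ y ∈ I.T j, y ∈ F.b.F (β + C) ∧ x = o * y}

/-- the torsor structure moves the filtration by a bounded amount -/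
def LOSS : Prop := ∀ (R AA : Type) [CommRing R] [CommRing AA] [Algebra R AA] [Algebra (ZMod p) R]
  [Algebra (ZMod p) AA] [IsScalarTower (ZMod p) R AA] [Pf p AA] (h : ℕ) (v : R) (G : Type) [Group G]
  (φ : G → R →+* R) (Φ : G →* (AA →+* AA)) (Γ : Type) [Group Γ] (H : GF p)
  (I : IgD p h v AA φ Φ Γ H) (F : FlD p v I.vi (fun g => Φ g) fun δ => I.γ δ),
    ∃ (j0 : ℕ) (W : ℝ), I.c0 ≤ j0 ∧ 1 ≤ W ∧ F.e * I.D ≤ W ∧ (I.D : ℝ) ≤ W ∧ ∀ j, j0 ≤ j →
      ∀ (a : ℕ → AA →+* AA) (T1 : Subalgebra R AA) (n M A : ℕ)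
        (D : RT H (fun g => Φ g) a v (I.T j) T1 (rtA p n (I.T j)) h M A (I.D ^ (j + 1))),
        (∀ (S : Type) [CommRing S] [Algebra (ZMod p) S] (τ : H.Pt S), p ^ M • τ = 0 →
          ∀ (β : ℝ) (x : rtA p n (I.T j)), (x : AA) ∈ F.M β →
            D.al τ x ∈ (sub p _ (F.M (β + W ^ (j + 1)))).baseChange S) ∧
        ∀ f β, ∀ x ∈ F.M β, (D.gam f : AA) * x ∈ F.M (β + W ^ (j + 1))

/-- transfer of a torsor structure from the ring to the complex -/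
def TRF : Prop := ∀ (R AA : Type) [CommRing R] [CommRing AA] [Algebra R AA] [Algebra (ZMod p) R]
  [Algebra (ZMod p) AA] [IsScalarTower (ZMod p) R AA] [Pf p AA] (h : ℕ) (v : R) (G : Type)
  (Φ : G → AA →+* AA) (H : GF p) (C : Cos.{0} (ZMod p)) (N : NF p R Φ C) (a : ℕ → AA →ₐ[R] AA)
  (T0 T1 T : Subalgebra R AA) (M A n : ℕ)
  (D : RT H Φ (fun s => (a s : AA →+* AA)) v T0 T1 T h M A n) (B : ℝ → Submodule R AA) (w : ℝ),
    Module.Finite (ZMod p) (H.O M 1) → A ≤ M → T1 ≤ T → (∃ e : AA →ₗ[R] T, ∀ x : T, e x = x) →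
    Stb Φ (Subalgebra.toSubmodule T) → (∀ s, ∀ x ∈ T, a s x ∈ T) → Monotone B → 0 ≤ w →
    (∀ (S : Type) [CommRing S] [Algebra (ZMod p) S] (τ : H.Pt S), p ^ M • τ = 0 →
      ∀ (β : ℝ) (x : T), (x : AA) ∈ B β → D.al τ x ∈ (sub p T (B (β + w))).baseChange S) →
    (∀ f β, ∀ x ∈ B β, (D.gam f : AA) * x ∈ B (β + w)) →
    Nonempty (TD H C.d (fun t => (N.fr.app t : Module.End (ZMod p) (C.X t)) ^ h)
      (fun e t => N.op t (a (1 + p ^ e)).toLinearMap)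
      (fun β => N.NS (Subalgebra.toSubmodule T ⊓ B β))
      (fun β => N.NS (Subalgebra.toSubmodule T1 ⊓ B β)) M A w)

/-- conjugation of a torsor structure by a power of the Frobenius map -/
def CONJ : Prop := ∀ (X : ℕ → Type) [∀ t, AddCommGroup (X t)] [∀ t, Module (ZMod p) (X t)]
  (H : GF p) (d : ∀ t, X t →ₗ[ZMod p] X (t + 1)) (fr : ∀ t, Module.End (ZMod p) (X t))
  (ae : ℕ → ∀ t, Module.End (ZMod p) (X t)) (N N0 : ℝ → ∀ t, Submodule (ZMod p) (X t))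
  (M A : ℕ) (D q : ℝ) (L : ℕ), (∀ t, Function.Bijective (fr t)) →
    (∀ t x, fr (t + 1) (d t x) = d t (fr t x)) → (∀ e t x, ae e t (fr t x) = fr t (ae e t x)) →
    0 < q → TD H d fr ae N N0 M A D →
    Nonempty (TD H d fr ae (fun b t => (N (b / q ^ L) t).map (fr t ^ L))
      (fun b t => (N0 (b / q ^ L) t).map (fr t ^ L)) M A (q ^ L * D))

/-- the theorem on the abstract core -/
def MAIN : Prop := ∀ (X : ℕ → Type) [∀ t, AddCommGroup (X t)] [∀ t, Module (ZMod p) (X t)]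
  (H : GF p) (Γ : Type) [Group Γ] (B : Core p X H Γ), B.toBase.BND

/-- boundedness at level `0` for all large Igusa levels -/
def BN : Prop := ∀ (R AA : Type) [CommRing R] [CommRing AA] [Algebra R AA] [Algebra (ZMod p) R]
  [Algebra (ZMod p) AA] [IsScalarTower (ZMod p) R AA] [Pf p AA] (h : ℕ) (v : R) (G : Type) [Group G]
  (φ : G → R →+* R) (Φ : G →* (AA →+* AA)) (Γ : Type) [Group Γ] (H : GF p)
  (I : IgD p h v AA φ Φ Γ H) (F : FlD p v I.vi (fun g => Φ g) fun δ => I.γ δ)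
  (C : Cos.{0} (ZMod p)) (N : NF p R (fun g => Φ g) C), 1 ≤ h → (fa I F N).Good (p ^ h) →
    (∀ y, C.d 0 y = 0 → y = 0) ∧ ∃ j0, ∀ j, j0 ≤ j → ∀ t b, ∃ b',
      ∀ x ∈ N.NS (Subalgebra.toSubmodule (I.T j) ⊓ F.M b) (t + 1), C.d _ x = 0 →
        ∃ y ∈ N.NS (Subalgebra.toSubmodule (I.T j) ⊓ F.M b') t, C.d t y = x

/-- the result for lines -/
def NVL : Prop := ∀ (R AA : Type) [CommRing R] [CommRing AA] [Algebra R AA] [Algebra (ZMod p) R]
  [Algebra (ZMod p) AA] [IsScalarTower (ZMod p) R AA] [Pf p AA] (h : ℕ) (v : R) (G : Type) [Group G]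
  (φ : G → R →+* R) (Φ : G →* (AA →+* AA)) (Γ : Type) [Group Γ] (H : GF p)
  (I : IgD p h v AA φ Φ Γ H) (F : FlD p v I.vi (fun g => Φ g) fun δ => I.γ δ)
  (C : Cos.{0} (ZMod p)) (N : NF p R (fun g => Φ g) C), 1 ≤ h → (fa I F N).Good (p ^ h) →
    (∀ g, ∃ β : R, φ g v * β = v) → ∀ (l : G → R) (s s' : AA), I.Gen l s s' → N.NV I.vi s'

end P261.P
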