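import Vale.Agent.P261Z.NM.Nf
import Vale.Agent.P261Z.P.Sk
import Vale.Agent.P261Z.Ser.Nm
import Vale.Agent.P261Z.KS.Gen

/-!
# P261, block P: from the vanishing inside the big ring to (BV)
-/

set_option linter.unusedSectionVars false

noncomputable section

namespace P261.P

open P261.Cs P261.NM P261.PC P261.Ser P261.Ser.SA

theorem gen_of {p : ℕ} [Fact p.Prime] {R AA : Type} [CommRing R] [CommRing AA] [Algebra R AA]
    [Algebra (ZMod p) R] [Algebra (ZMod p) AA] [IsScalarTower (ZMod p) R AA] [Pf p AA] {h : ℕ}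
    {v : R} {G : Type} [Group G] {φ : G → R →+* R} {Φ : G →* (AA →+* AA)} {Γ : Type} [Group Γ]
    {H : GF p} (I : IgD p h v AA φ Φ Γ H) {L : Type} [CommRing L] (ι : R →+* L) (π : L →+* AA)
    (hπ : ∀ r, π (ι r) = algebraMap R AA r) {j : ℕ} (hj : ∀ x, π x ∈ I.T j) (Ψ : G → L →+* L)
    (hΨ : ∀ g x, π (Ψ g x) = Φ g (π x)) {l : G → R}
    (hl : Vale.Agent.P261Z.KS.Gen ι Ψ v l) : ∃ s s', I.Gen l s s' := by
  obtain ⟨a, b, ⟨N, c, hc⟩, hg⟩ := hl
  have hv : I.vi ∈ I.T j := I.T_mono (Nat.zero_le j) I.vi_mem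
  have e : π a * π b * (π c * I.vi ^ N) = 1 := by
    rw [← mul_assoc, ← map_mul, ← map_mul, ← hc, map_pow, hπ, ← mul_pow, I.v_vi, one_pow]
  refine ⟨π a * (π a * (π c * I.vi ^ N)), π b * (π b * (π c * I.vi ^ N)),
    ⟨j, mul_mem (hj a) (mul_mem (hj a) (mul_mem (hj c) (pow_mem hv N))),
      mul_mem (hj b) (mul_mem (hj b) (mul_mem (hj c) (pow_mem hv N)))⟩, ?_, fun g => ?_⟩
  · linear_combination (π a * π b * (π c * I.vi ^ N) + 1) * e
  · have e1 := congrArg π (hg g)
    have e2 := congrArg (Φ g) e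
    rw [map_mul, map_mul, map_mul, hΨ, hΨ, hπ] at e1
    rw [map_mul, map_mul, map_one] at e2
    rw [map_mul, map_mul]
    generalize Φ g (π c * I.vi ^ N) = w' at e2
    generalize π c * I.vi ^ N = w at e
    linear_combination (π a * w * Φ g (π a) * w') * e1 - (π a * π a * w) * e2 +
      (algebraMap R AA (l g) * Φ g (π a) * Φ g (π a) * w') * e

variable {p : ℕ} [hp : Fact p.Prime] {G K : Type} [TopologicalSpace G] [Group G]
  [IsTopologicalGroup G] [Field K] [CharP K p] {c : ℕ} [Algebra (ZMod p) (RR K c)]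
  {S : SA G K c} {A : Act (ZMod p) (RR K c) G (Fin c)} (hA : Ser.Cmp S A)
  {AA : Type} [CommRing AA] [Algebra (RR K c) AA] (V : A.Mod AA) {Φ : G → AA →+* AA}
  (hV : ∀ g x, V.ρ g x = Φ g x)
  (hs : ∀ g r, Φ g (algebraMap (RR K c) AA r) = algebraMap (RR K c) AA (S.φ g r))

/-- the embedding of a line -/
def emb (l : S.Coc) (x : AA) (hx : ∀ g, Φ g x = algebraMap (RR K c) AA (val l g) * x) :
    LHom (hA.ln l) V :=
  ⟨LinearMap.toSpanSingleton (RR K c) AA x, fun g r => by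
    change (val l g * S.φ g r) • x = V.ρ g (r • x)
    rw [hV, Algebra.smul_def, Algebra.smul_def, map_mul, map_mul, hs, hx]
    ring⟩

variable [IsNoetherianRing (RR K c)] [IsAdicComplete A.m (RR K c)]

include hA hV hs in
theorem bv_of_nv (hi : Function.Injective (algebraMap (RR K c) AA)) {v : RR K c} {β : S.Coc}
    (hv : ∀ g, S.φ g v = val β g * v) {vi : AA} (hvi : algebraMap (RR K c) AA v * vi = 1)
    (l : S.Coc) {s s' : AA} (h1 : s * s' = 1)
    (h2 : ∀ g, s = algebraMap (RR K c) AA (val l g) * Φ g s)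
    (H0 : ∀ y, V.N.d 0 y = 0 → y = 0)
    (H : ∀ n, ∃ a : ℕ, ∀ y ∈ V.NS (Submodule.span (RR K c) {s'}) (n + 1), V.N.d _ y = 0 →
      ∃ z ∈ V.NS (Submodule.span (RR K c) {s' * vi ^ a}) n, V.N.d n z = y) : S.BV p v β l := by
  have h3 : ∀ g, Φ g s' = algebraMap (RR K c) AA (val l g) * s' := fun g => by
    have e := congrArg (Φ g) h1
    rw [map_mul, map_one] at e
    linear_combination (-Φ g s') * h1 + (s' * Φ g s') * h2 g +
      (algebraMap (RR K c) AA (val l g) * s') * e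
  have h4 : ∀ (a : ℕ) g, Φ g (s' * vi ^ a) =
      algebraMap (RR K c) AA (val (l * (β ^ a)⁻¹) g) * (s' * vi ^ a) := fun a g => by
    have e1 : (algebraMap (RR K c) AA v * vi) ^ a = 1 := by rw [hvi, one_pow]
    have e2 := congrArg (Φ g) e1
    have e3 := congrArg (algebraMap (RR K c) AA) (S.val_mul_inv (β ^ a) g)
    rw [mul_pow, map_mul, ← map_pow, hs, map_pow (S.φ g), hv, mul_pow, map_mul, map_one] at e2
    rw [mul_pow, ← map_pow] at e1
    rw [val_pow, map_mul, map_one] at e3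
    rw [map_mul, h3, val_mul, map_mul]
    generalize Φ g (vi ^ a) = y at e2
    generalize algebraMap (RR K c) AA (val (β ^ a)⁻¹ g) = b' at e3
    generalize algebraMap (RR K c) AA (val β g ^ a) = b at e2 e3
    generalize algebraMap (RR K c) AA (v ^ a) = w at e1 e2
    linear_combination (algebraMap (RR K c) AA (val l g) * s') *
      (b' * vi ^ a * e2 - y * e3 - b * b' * y * e1)
  have hinj : ∀ (x x' : AA), x * x' = 1 →
      Function.Injective (LinearMap.toSpanSingleton (RR K c) AA x) := fun x x' e => by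
    rw [injective_iff_map_eq_zero]
    intro r hr
    rw [LinearMap.toSpanSingleton_apply, Algebra.smul_def] at hr
    refine hi ?_
    rw [map_zero, ← mul_one (algebraMap _ _ r), ← e, ← mul_assoc, hr, zero_mul]
  let e0 := emb hA V hV hs l s' h3
  have i0 := N_inj e0 (hinj s' s (mul_comm s s' ▸ h1))
  refine hA.bv_of_null p hv l fun n => ?_
  cases n with
  | zero =>
    refine ⟨0, fun x hx => ?_⟩
    obtain rfl : x = 0 := i0 0 ((H0 _ (e0.N.map_cocycle hx)).trans (map_zero _).symm)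
    rw [map_zero]
    exact zero_mem _
  | succ n =>
    obtain ⟨a, ha⟩ := H n
    refine ⟨a, fun x hx => ?_⟩
    let e1 := emb hA V hV hs _ _ (h4 a)
    have e : (algebraMap (RR K c) AA v * vi) ^ a = 1 := by rw [hvi, one_pow]
    obtain ⟨z, hz, hd⟩ := ha (e0.N.app _ x) (by
      rw [LinearMap.span_singleton_eq_range]
      exact e0.mem_range.2 ⟨x, rfl⟩) (e0.N.map_cocycle hx)
    rw [LinearMap.span_singleton_eq_range] at hz
    obtain ⟨z, rfl⟩ := e1.mem_range.1 hz
    refine ⟨z, N_inj e1 (hinj _ (s * algebraMap (RR K c) AA v ^ a) ?_) _ ?_⟩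
    · rw [mul_pow] at e
      linear_combination (vi ^ a * algebraMap (RR K c) AA v ^ a) * h1 + e
    · refine ((e1.N.map_d n z).trans hd).trans (N_comp (hA.mv hv a l) e1 e0 (fun r => ?_) x).symm
      change (v ^ a * r) • (s' * vi ^ a) = r • s'
      rw [Algebra.smul_def, Algebra.smul_def, map_mul, map_pow]
      rw [mul_pow] at e
      linear_combination (algebraMap (RR K c) AA r * s') * e

omit hV hs in
include hA in
/-- **Block P.** -/
theorem stP (hN : NVL p) [Ch p (RR K c)] [Algebra (ZMod p) AA] [IsScalarTower (ZMod p) (RR K c) AA]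
    [Pf p AA] {Ψ : G →* (AA →+* AA)} (hV : ∀ g x, V.ρ g x = Ψ g x)
    (hP : PBs (P261.fr p (RR K c)) A.m A.m) {h : ℕ} (hh : 1 ≤ h) {v : RR K c} {β : S.Coc}
    (hv : ∀ g, S.φ g v = val β g * v) {φ : G → RR K c →+* RR K c} (hφ : ∀ g r, φ g r = S.φ g r)
    {Γ : Type} [Group Γ] {H : GF p} (I : IgD p h v AA φ Ψ Γ H)
    (F : FlD p v I.vi (fun g => Ψ g) fun δ => I.γ δ)
    (hG : (fa I F (nf (Φ := fun g => Ψ g) V hV hP)).Good (p ^ h)) (l : S.Coc) {s s' : AA}
    (hl : I.Gen (val l) s s') : S.BV p v β l := by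
  have h := hN _ _ h v G φ Ψ Γ H I F _ _ hh hG (fun g => ⟨val β⁻¹ g, by
    rw [hφ, hv, mul_right_comm, S.val_mul_inv, one_mul]⟩) _ s s' hl
  exact bv_of_nv hA V (Φ := fun g => Ψ g) hV (fun g r => by rw [I.semi, hφ]) I.inj hv I.v_vi l
    hl.2.1 hl.2.2 h.1 h.2

end P261.P
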