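import Vale.Agent.P261Z.P.Asm
import Vale.Agent.P261Z.PC.Main
import Vale.Agent.P261Z.PC.Van

/-! # P261, block P: the result for lines -/

namespace P261.P

theorem main_all (p : ℕ) [hp : Fact p.Prime] : MAIN p :=
  fun _ _ _ _ _ _ B => B.bnd' hp.out (PC.h3 p) (PC.h4 p)

theorem nvl_all (p : ℕ) [Fact p.Prime] : NVL p := nvl_of (main_all p)

end P261.P
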