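import Vale.Agent.P261Z.P.Sk

/-! Approximate roots of principal units. -/

namespace P261.P

namespace ApxA

theorem step {p : ℕ} {e : ℕ} (he : 2 ≤ e) {c : ℤ} (hc : (p : ℤ) ^ (e + 1) ∣ 1 - c) (i : ℕ) :
    ∃ s : ℤ, (p : ℤ) ^ e ∣ s - 1 ∧ (p : ℤ) ^ (e + 1 + i) ∣ s ^ p - c := by
  induction i with
  | zero => exact ⟨1, by simp, by simpa using hc⟩
  | succ i ih =>
    obtain ⟨s, h1, w, h2⟩ := ih
    obtain ⟨a, h3⟩ := sq_dvd_add_pow_sub_sub (-((p : ℤ) ^ (e + i) * w)) s p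
    obtain ⟨b, h4⟩ := ((dvd_pow_self _ (by omega)).trans h1).trans
      (sub_one_dvd_pow_sub_one s (p - 1))
    obtain ⟨d, rfl⟩ := Nat.exists_eq_add_of_le he
    refine ⟨s + -((p : ℤ) ^ (2 + d + i) * w), ?_, (p : ℤ) ^ (d + i) * w ^ 2 * a - w * b, ?_⟩
    · rw [add_sub_right_comm]
      exact h1.add ((pow_dvd_pow _ (by omega)).mul_right _).neg_right
    · linear_combination h3 + h2 - (p : ℤ) ^ (2 + d + i) * w * p * h4

theorem iter {p : ℕ} (j m : ℕ) : ∀ e, 2 ≤ e → ∀ c : ℤ, (p : ℤ) ^ (e + m) ∣ c - 1 →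
    ∃ s : ℤ, (p : ℤ) ^ e ∣ s - 1 ∧ s ^ p ^ m ≡ c [ZMOD (p : ℤ) ^ j] := by
  induction m with
  | zero => exact fun e _ c hc => ⟨c, hc, by rw [pow_zero, pow_one]⟩
  | succ m ih =>
    intro e he c hc
    obtain ⟨t, h1, h2⟩ := ih (e + 1) (by omega) c (by rwa [add_right_comm])
    obtain ⟨s, h3, h4⟩ := step he (dvd_sub_comm.1 h1) j
    refine ⟨s, h3, ?_⟩
    rw [pow_succ', pow_mul]
    exact ((Int.modEq_iff_dvd.2 ((pow_dvd_pow _ (by omega)).trans h4)).symm.pow _).trans h2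

end ApxA

theorem apx (p : ℕ) [Fact p.Prime] : APX p := fun m e j he => by
  have hp : p.Prime := Fact.out
  obtain ⟨s, h1, h2⟩ := ApxA.iter (p := p) j m e he (1 + p ^ (e + m)) (by simp)
  obtain ⟨z, -, hz⟩ := Int.existsUnique_equiv_nat s (b := (p : ℤ) ^ (e + j))
    (pow_pos (Int.natCast_pos.2 hp.pos) _)
  refine ⟨z, ?_, ?_⟩
  · have h3 := (hz.of_dvd (pow_dvd_pow _ (by omega))).trans (Int.modEq_iff_dvd.2 h1).symm
    rw [← Nat.mod_eq_of_lt (Nat.one_lt_pow (by omega) hp.one_lt : 1 < p ^ e)]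
    exact Int.natCast_modEq_iff.1 (by exact_mod_cast h3)
  · have h3 := ((hz.of_dvd (pow_dvd_pow _ (by omega))).pow (p ^ m)).trans h2
    exact Int.natCast_modEq_iff.1 (by exact_mod_cast h3)

end P261.P
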