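import Vale.Agent.P261Z.P.Sk

/-!
# P261, block P: conjugation of a torsor structure
-/

noncomputable section

namespace P261.P

open scoped TensorProduct
open P261.PC

section aux

variable {k S S' V W : Type} [CommRing k] [CommRing S] [CommRing S'] [Algebra k S] [Algebra k S']
  [AddCommGroup V] [Module k V] [AddCommGroup W] [Module k W]

theorem lT_mem (E : V →ₗ[k] W) (P : Submodule k V) {y : S ⊗[k] V} (hy : y ∈ P.baseChange S) :
    E.lTensor S y ∈ (P.map E).baseChange S := by
  obtain ⟨z, rfl⟩ := hy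
  induction z using TensorProduct.induction_on with
  | zero => simp
  | tmul s x =>
    rw [LinearMap.baseChange_tmul, LinearMap.lTensor_tmul]
    exact Submodule.tmul_mem_baseChange_of_mem _ ⟨x, x.2, rfl⟩
  | add a b ha hb =>
    rw [map_add, map_add]
    exact add_mem ha hb

theorem lT_lift (E : V ≃ₗ[k] V) (a : V →ₗ[k] S ⊗[k] V) (y : S ⊗[k] V) :
    E.toLinearMap.lTensor S (a.liftBaseChange S y) =
      (E.toLinearMap.lTensor S ∘ₗ a ∘ₗ E.symm.toLinearMap).liftBaseChange S
        (E.toLinearMap.lTensor S y) := by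
  induction y using TensorProduct.induction_on with
  | zero => simp
  | tmul s x =>
    rw [LinearMap.lTensor_tmul, LinearMap.liftBaseChange_tmul, LinearMap.liftBaseChange_tmul]
    simp only [LinearMap.comp_apply, LinearEquiv.coe_coe, LinearEquiv.symm_apply_apply]
    exact (E.toLinearMap.baseChange S).map_smul s (a x)
  | add a b ha hb => simp only [map_add, ha, hb]

theorem lT_comm {V' W' : Type} [AddCommGroup V'] [Module k V'] [AddCommGroup W'] [Module k W']
    {f : V →ₗ[k] W} {g : W →ₗ[k] W'} {f' : V →ₗ[k] V'} {g' : V' →ₗ[k] W'}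
    (h : ∀ x, g (f x) = g' (f' x)) (y : S ⊗[k] V) :
    g.lTensor S (f.lTensor S y) = g'.lTensor S (f'.lTensor S y) := by
  rw [← LinearMap.lTensor_comp_apply, ← LinearMap.lTensor_comp_apply,
    show g ∘ₗ f = g' ∘ₗ f' from LinearMap.ext h]

theorem lT_map₂ {O : Type} [AddCommGroup O] [Module k O] (E : V ≃ₗ[k] V)
    (th th' : O →ₗ[k] V →ₗ[k] V) (h : ∀ f x, th' f (E x) = E (th f x)) (z : S ⊗[k] O)
    (y : S ⊗[k] V) :
    E.toLinearMap.lTensor S (TensorProduct.map₂ (LinearMap.mul k S) th z y) =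
      TensorProduct.map₂ (LinearMap.mul k S) th' z (E.toLinearMap.lTensor S y) := by
  induction z using TensorProduct.induction_on with
  | zero => simp
  | tmul s f =>
    induction y using TensorProduct.induction_on with
    | zero => simp
    | tmul s' x => simp [h]
    | add a b ha hb => simp only [map_add, ha, hb]
  | add a b ha hb => simp only [map_add, LinearMap.add_apply, ha, hb]

end aux

variable {p : ℕ} {X : ℕ → Type} [∀ t, AddCommGroup (X t)] [∀ t, Module (ZMod p) (X t)]
  {H : GF p} {d : ∀ t, X t →ₗ[ZMod p] X (t + 1)} {fr : ∀ t, Module.End (ZMod p) (X t)}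
  {ae : ℕ → ∀ t, Module.End (ZMod p) (X t)} {N N0 : ℝ → ∀ t, Submodule (ZMod p) (X t)}
  {M A : ℕ} {D : ℝ}

/-- conjugation by automorphisms which commute with all the structure maps -/
def conjTD (T : TD H d fr ae N N0 M A D) (E : ∀ t, X t ≃ₗ[ZMod p] X t)
    (hd : ∀ t x, E (t + 1) (d t x) = d t (E t x)) (hf : ∀ t x, E t (fr t x) = fr t (E t x))
    (ha : ∀ e t x, E t (ae e t x) = ae e t (E t x)) {c : ℝ} (hc : c ≠ 0) :
    TD H d fr ae (fun b t => (N (b / c) t).map (E t).toLinearMap)
      (fun b t => (N0 (b / c) t).map (E t).toLinearMap) M A (c * D) where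
  al τ t := (E t).toLinearMap.lTensor _ ∘ₗ T.al τ t ∘ₗ (E t).symm.toLinearMap
  nat := by
    rintro S S' _ _ _ _ f τ hτ b t _ ⟨x, hx, rfl⟩
    simp only [LinearMap.comp_apply, LinearEquiv.coe_coe, LinearEquiv.symm_apply_apply]
    rw [← T.nat f τ hτ _ t x hx]
    exact LinearMap.rTensor_baseChange f _ (E t).toLinearMap
  zero := by
    rintro S _ _ b t _ ⟨x, hx, rfl⟩
    simp only [LinearMap.comp_apply, LinearEquiv.coe_coe, LinearEquiv.symm_apply_apply]
    rw [T.zero _ t x hx, LinearMap.lTensor_tmul]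
    rfl
  add := by
    rintro S _ _ τ τ' hτ hτ' b t _ ⟨x, hx, rfl⟩
    simp only [LinearMap.comp_apply, LinearEquiv.coe_coe, LinearEquiv.symm_apply_apply]
    rw [T.add τ τ' hτ hτ' _ t x hx, lT_lift]
  loss := by
    rintro S _ _ τ hτ b t _ ⟨x, hx, rfl⟩
    simp only [LinearMap.comp_apply, LinearEquiv.coe_coe, LinearEquiv.symm_apply_apply]
    rw [show (b + c * D) / c = b / c + D by field_simp]
    exact lT_mem _ _ (T.loss τ hτ _ t x hx)
  chain := by
    rintro S _ _ τ hτ b t _ ⟨x, hx, rfl⟩
    simp only [LinearMap.comp_apply, LinearEquiv.coe_coe, ← hd, LinearEquiv.symm_apply_apply]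
    rw [T.chain τ hτ _ t x hx]
    exact lT_comm (hd t) _
  fro := by
    rintro S _ _ τ hτ b t _ ⟨x, hx, rfl⟩
    simp only [LinearMap.comp_apply, LinearEquiv.coe_coe, ← hf, LinearEquiv.symm_apply_apply]
    rw [T.fro τ hτ _ t x hx]
    exact lT_comm (hf t) _
  cen := by
    intro S _ _ τ hτ e
    have key : ∀ t x, T.al τ t (ae e t x) =
          LinearMap.lTensor S (ae e t) (T.al ((1 + p ^ e) • τ) t x) →
        ((E t).toLinearMap.lTensor S ∘ₗ T.al τ t ∘ₗ (E t).symm.toLinearMap) (ae e t (E t x)) =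
        LinearMap.lTensor S (ae e t) (((E t).toLinearMap.lTensor S ∘ₗ
          T.al ((1 + p ^ e) • τ) t ∘ₗ (E t).symm.toLinearMap) (E t x)) := by
      intro t x h
      simp only [LinearMap.comp_apply, LinearEquiv.coe_coe, ← ha, LinearEquiv.symm_apply_apply]
      rw [h]
      exact lT_comm (ha e t) _
    first
      | (rintro he b t _ ⟨x, hx, rfl⟩
         exact key t x (T.cen τ hτ e he _ t x hx))
      | (rintro b t _ ⟨x, hx, rfl⟩
         exact key t x (T.cen τ hτ e _ t x hx))
      | (rintro b t he _ ⟨x, hx, rfl⟩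
         exact key t x (T.cen τ hτ e _ t he x hx))
  th t := (((E t).conj : _ ≃ₗ[ZMod p] _) : _ →ₗ[ZMod p] _) ∘ₗ T.th t
  th_one := by
    rintro b t _ ⟨x, hx, rfl⟩
    simp [LinearEquiv.conj_apply, T.th_one _ t x hx]
  th_loss := by
    rintro f b t _ ⟨x, hx, rfl⟩
    rw [show (b + c * D) / c = b / c + D by field_simp]
    exact ⟨_, T.th_loss f _ t x hx, by simp [LinearEquiv.conj_apply]⟩
  th_eqv := by
    rintro S _ _ τ hτ f b t _ ⟨x, hx, rfl⟩
    simp only [LinearMap.comp_apply, LinearEquiv.coe_coe, LinearEquiv.conj_apply_apply,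
      LinearEquiv.symm_apply_apply]
    rw [T.th_eqv τ hτ f _ t x hx]
    exact lT_map₂ _ _ _ (fun f x => by simp [LinearEquiv.conj_apply]) _ _
  fix := by
    rintro S _ _ τ hτ b t _ ⟨x, hx, rfl⟩
    simp only [LinearMap.comp_apply, LinearEquiv.coe_coe, LinearEquiv.symm_apply_apply]
    rw [T.fix τ hτ _ t x hx, LinearMap.lTensor_tmul]
    rfl
  inv := by
    rintro b t _ ⟨x, hx, rfl⟩ h
    simp only [LinearMap.comp_apply, LinearEquiv.coe_coe, LinearEquiv.symm_apply_apply] at h
    rw [show (b + c * D) / c = b / c + D by field_simp]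
    refine ⟨x, T.inv _ t x hx ?_, rfl⟩
    apply ((E t).lTensor (H.O A 1)).injective
    exact h

theorem conj (p : ℕ) [Fact p.Prime] : CONJ p := by
  intro X _ _ H d fr ae N N0 M A D q L hb hd ha hq T
  have hbL : ∀ t, Function.Bijective (fr t ^ L : Module.End (ZMod p) (X t)) := fun t => by
    rw [Module.End.coe_pow]
    exact (hb t).iterate L
  refine ⟨conjTD T (fun t => LinearEquiv.ofBijective (fr t ^ L) (hbL t)) ?_ ?_ ?_
    (pow_pos hq L).ne'⟩
  · intro t x
    simp only [LinearEquiv.ofBijective_apply, Module.End.coe_pow]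
    exact ((show Function.Semiconj (d t) (fr t) (fr (t + 1)) from
      fun y => (hd t y).symm).iterate_right L x).symm
  · intro t x
    simp only [LinearEquiv.ofBijective_apply, Module.End.coe_pow]
    exact (Function.Commute.iterate_self (fr t) L) x
  · intro e t x
    simp only [LinearEquiv.ofBijective_apply, Module.End.coe_pow]
    exact ((show Function.Semiconj (ae e t) (fr t) (fr t) from ha e t).iterate_right L x).symm

end P261.P
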