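import Vale.Agent.P261Z.P.Sk

/-!
# P261, block P: the filtration at a finite level, and the loss of the torsor structure
-/

set_option linter.unusedSectionVars false

noncomputable section

namespace P261.P

open scoped TensorProduct
open P261.PC P261.Cs

namespace Dec

variable {p : ℕ} [hp : Fact p.Prime] {R AA : Type} [CommRing R] [CommRing AA] [Algebra R AA]

theorem rtA_mono [Ch p AA] {n n' : ℕ} {T T' : Subalgebra R AA} (hn : n ≤ n') (hT : T ≤ T')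
    {x : AA} (hx : x ∈ rtA p n T) : x ∈ rtA p n' T' := by
  obtain ⟨d, rfl⟩ := Nat.exists_eq_add_of_le hn
  rw [mem_rtA, pow_add, pow_mul]
  exact T'.pow_mem (hT hx) _

theorem le_rtA [Ch p AA] (n : ℕ) {T : Subalgebra R AA} {x : AA} (hx : x ∈ T) : x ∈ rtA p n T :=
  T.pow_mem hx _

theorem int_rt [Pf p AA] (k : ℕ) {x : AA} (hx : IsIntegral R x) : IsIntegral R ((rt p AA ^ k) x) :=
  IsIntegral.of_pow (pow_pos p_pos k) (by rwa [rt_pow_pp])

theorem bc_mul {k S T : Type} [CommRing k] [CommRing S] [CommRing T] [Algebra k S] [Algebra k T]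
    {P Q : Submodule k T} {y : T} (h : ∀ m ∈ P, y * m ∈ Q) {z : S ⊗[k] T}
    (hz : z ∈ P.baseChange S) : (1 : S) ⊗ₜ[k] y * z ∈ Q.baseChange S := by
  obtain ⟨z, rfl⟩ := hz
  induction z with
  | zero => simp
  | tmul a m =>
    rw [LinearMap.baseChange_tmul, Algebra.TensorProduct.tmul_mul_tmul]
    exact Submodule.tmul_mem_baseChange_of_mem _ (h m m.2)
  | add a b ha hb =>
    rw [map_add, mul_add]
    exact add_mem ha hb

variable [Algebra (ZMod p) R] [Algebra (ZMod p) AA] [IsScalarTower (ZMod p) R AA] [Pf p AA]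
  {h : ℕ} {v : R} {G : Type} [Group G] {φ : G → R →+* R} {Φ : G →* (AA →+* AA)} {Γ : Type}
  [Group Γ] {H : GF p} (I : IgD p h v AA φ Φ Γ H)

theorem exh {ι : Type} [Finite ι] (o : ι → AA) (n j : ℕ) :
    ∃ n' j', n ≤ n' ∧ j ≤ j' ∧ ∀ i, o i ∈ rtA p n' (I.T j') := by
  choose a b hab using fun i => I.T_exh (o i)
  obtain ⟨A, hA⟩ := (Set.finite_range a).bddAbove
  obtain ⟨B, hB⟩ := (Set.finite_range b).bddAbove
  exact ⟨max n A, max j B, le_max_left _ _, le_max_left _ _, fun i =>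
    rtA_mono ((hA ⟨i, rfl⟩).trans (le_max_right _ _))
      (I.T_mono ((hB ⟨i, rfl⟩).trans (le_max_right _ _))) (hab i)⟩

theorem fix {n j : ℕ} {x : AA} (hx : x ∈ rtA p n (I.T j)) (δ : I.Gs j) : I.γ δ x = x :=
  pow_pp_inj n (by rw [← map_pow, I.T_fix j δ δ.2 _ hx])

theorem tr_mem {j j' : ℕ} (hj : j ≤ j') [Fintype (I.Gs j ⧸ (I.Gs j').subgroupOf (I.Gs j))]
    {u : AA} (hu : u ∈ I.T j') :
    ∑ δ : I.Gs j ⧸ (I.Gs j').subgroupOf (I.Gs j), I.γ (δ.out : I.Gs j) u ∈ I.T j := by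
  refine I.T_inv j j' hj _ (sum_mem fun δ _ => I.T_γ j' _ u hu) fun g hg => ?_
  rw [map_sum, ← Equiv.sum_comp (MulAction.toPerm (⟨g, hg⟩ : I.Gs j))
    fun δ : I.Gs j ⧸ (I.Gs j').subgroupOf (I.Gs j) => I.γ (δ.out : I.Gs j) u]
  refine Finset.sum_congr rfl fun δ _ => ?_
  obtain ⟨c, hc⟩ := QuotientGroup.mk_out_eq_mul ((I.Gs j').subgroupOf (I.Gs j))
    ((⟨g, hg⟩ : I.Gs j) * δ.out)
  rw [MulAction.toPerm_apply, ← MulAction.Quotient.coe_smul_out, smul_eq_mul, hc]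
  simp only [Subgroup.coe_mul, map_mul, AlgHom.mul_apply]
  rw [I.T_fix j' ((c : I.Gs j) : Γ) c.2 u hu]

/-- lowering of the Igusa level -/
theorem low_j {ι : Type} [Fintype ι] {n j : ℕ} {o y : ι → AA} (ho : ∀ i, IsIntegral R (o i))
    (hy : ∀ i, y i ∈ I.T j) (hw : ∑ i, o i * y i ∈ rtA p n (I.T j)) :
    ∃ (m : ℕ) (o' : ι → AA), (∀ i, IsIntegral R (o' i) ∧ o' i ∈ rtA p (n + m) (I.T j)) ∧
      algebraMap R AA v * ∑ i, o i * y i = ∑ i, o' i * y i := by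
  obtain ⟨n', j', hn, hj, hm⟩ := exh I o n j
  obtain ⟨m, rfl⟩ := Nat.exists_eq_add_of_le hn
  obtain ⟨t, ht, it, N, -, hN⟩ := I.tr j j' hj
  have := I.Gs_fin j j' hj
  have := Fintype.ofFinite (I.Gs j ⧸ (I.Gs j').subgroupOf (I.Gs j))
  rw [finsum_eq_sum_of_fintype] at hN
  obtain ⟨s, hs, is⟩ : ∃ s, s ^ p ^ N = t ∧ IsIntegral R s := ⟨_, rt_pow_pp N t, int_rt N it⟩
  obtain ⟨ω, hω, iω⟩ : ∃ ω, ω ^ p ^ N = algebraMap R AA v ^ (p ^ N - N) ∧ IsIntegral R ω :=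
    ⟨_, rt_pow_pp N _, int_rt N (isIntegral_algebraMap.pow _)⟩
  have h1 : ω * ∑ δ : I.Gs j ⧸ (I.Gs j').subgroupOf (I.Gs j), I.γ (δ.out : I.Gs j) s =
      algebraMap R AA v := pow_pp_inj N (by
    rw [mul_pow, sum_pow_pp, hω]
    simp only [← map_pow (I.γ _), hs]
    rw [hN, ← pow_add, Nat.sub_add_cancel (Nat.lt_pow_self one_lt_p).le])
  refine ⟨m + N, fun i => ω * ∑ δ : I.Gs j ⧸ (I.Gs j').subgroupOf (I.Gs j),
    I.γ (δ.out : I.Gs j) (s * o i), fun i => ⟨iω.mul (IsIntegral.sum _ fun δ _ =>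
      (is.mul (ho i)).map _), mul_mem (rtA_mono (n := N) (by omega) le_rfl ?_) ?_⟩, ?_⟩
  · rw [mem_rtA, hω]
    exact pow_mem (Subalgebra.algebraMap_mem _ v) _
  · rw [mem_rtA, sum_pow_pp]
    simp only [← map_pow (I.γ _)]
    exact tr_mem I hj (mul_mem (rtA_mono (n := N) (by omega) le_rfl (by rwa [mem_rtA, hs]))
      (rtA_mono (by omega) le_rfl (hm i)) : s * o i ∈ rtA p (n + (m + N)) (I.T j'))
  · rw [← h1]
    simp only [mul_assoc, Finset.sum_mul, ← Finset.mul_sum]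
    rw [Finset.sum_comm]
    refine congrArg _ (Finset.sum_congr rfl fun δ _ => ?_)
    rw [← fix I hw δ.out, ← map_mul, Finset.mul_sum, map_sum]
    refine Finset.sum_congr rfl fun i _ => ?_
    rw [← mul_assoc, map_mul _ _ (y i), I.T_fix j _ δ.out.2 _ (hy i)]

/-- lowering of the level -/
theorem low_n {ι : Type} [Fintype ι] {n m j : ℕ} (hj : I.c0 ≤ j) {o y : ι → AA}
    (ho : ∀ i, IsIntegral R (o i) ∧ o i ∈ rtA p (n + m) (I.T j)) (hy : ∀ i, y i ∈ I.T j)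
    (hw : ∑ i, o i * y i ∈ rtA p n (I.T j)) :
    ∃ o' : ι → AA, (∀ i, IsIntegral R (o' i) ∧ o' i ∈ rtA p n (I.T j)) ∧
      algebraMap R AA v ^ I.D ^ (j + 1) * ∑ i, o i * y i = ∑ i, o' i * y i := by
  obtain ⟨π, h1, h2, h3, h4⟩ := I.ret j hj m
  let O : ι → rtA p m (I.T j) := fun i => ⟨o i ^ p ^ n, by
    rw [mem_rtA, ← pow_mul, ← pow_add]
    exact (ho i).2⟩
  let Y : ι → rtA p m (I.T j) := fun i => ⟨y i ^ p ^ n, le_rtA m (pow_mem (hy i) _)⟩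
  have e : (⟨_, le_rtA m hw⟩ * 1 : rtA p m (I.T j)) = ∑ i, Y i * O i := Subtype.ext (by
    simp only [one_mul, sum_pow_pp, mul_pow, AddSubmonoidClass.coe_finsetSum,
      MulMemClass.coe_mul, O, Y, mul_comm])
  have h5 := h3 ⟨_, le_rtA m hw⟩ 1 hw
  rw [e, h1, mul_one, map_sum,
    Finset.sum_congr rfl fun i _ => h3 (Y i) (O i) (pow_mem (hy i) _)] at h5
  have h6 : ∀ i, (algebraMap R AA v ^ I.D ^ (j + 1) * (rt p AA ^ n) (π (O i))) ^ p ^ n =
      (algebraMap R AA v ^ I.D ^ (j + 1)) ^ p ^ n * π (O i) := fun i => by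
    rw [mul_pow, rt_pow_pp]
  refine ⟨fun i => algebraMap R AA v ^ I.D ^ (j + 1) * (rt p AA ^ n) (π (O i)),
    fun i => ⟨IsIntegral.of_pow (pow_pos hp.out.pos n) ?_, ?_⟩, pow_pp_inj n ?_⟩
  · rw [h6, ← pow_sub_one_mul (pow_pos p_pos n).ne', mul_assoc]
    exact ((isIntegral_algebraMap.pow _).pow _).mul (h4 _ ((ho i).1.pow _))
  · rw [mem_rtA, h6]
    exact mul_mem (pow_mem (pow_mem (Subalgebra.algebraMap_mem _ v) _) _) (h2 _)
  · rw [mul_pow, sum_pow_pp _ fun i => _ * _ * _, ← show _ = (∑ i, o i * y i) ^ p ^ n from h5,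
      Finset.mul_sum]
    refine Finset.sum_congr rfl fun i _ => ?_
    rw [mul_pow, h6, mul_assoc, mul_comm (π _)]

theorem pole_mem (F : FlD p v I.vi (fun g => Φ g) fun δ => I.γ δ) {N : ℕ} {x : AA}
    (hx : IsIntegral R (algebraMap R AA v ^ N * x)) : x ∈ F.b.F (N * F.e) := by
  have h1 := Fil.mul_le (Fil.pow_mem F.vi_mem N) (F.int _ hx) (add_zero _).le
  rwa [← mul_assoc, ← mul_pow, mul_comm I.vi, I.v_vi, one_pow, one_mul] at h1

end Dec

open Dec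

variable (p : ℕ) [hp : Fact p.Prime]

theorem dec : DEC p := by
  intro R AA _ _ _ _ _ _ _ h v G _ φ Φ Γ _ H I F
  obtain ⟨s, hs⟩ := F.gen
  obtain ⟨n0, j0, -, hj0, h0⟩ := exh I (fun x : s => (x : AA)) 0 I.c0
  obtain ⟨C, hC⟩ := hs n0
  refine ⟨j0, C + 1, hj0, fun j hj n β z hz hβ => ?_⟩
  obtain ⟨l, o, y, e⟩ := Submodule.mem_span_set'.1 (hC (I.T j0).toSubring
    (I.T_mono (Nat.zero_le _) I.vi_mem) (fun x hx => h0 ⟨x, hx⟩) β z hβ)
  have e1 : ∑ i, (o i : AA) * y i = algebraMap R AA v ^ C * z := e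
  have hy : ∀ i, (y i : AA) ∈ I.T j := fun i => I.T_mono hj (y i).2.1
  have hv : algebraMap R AA v ∈ rtA p n (I.T j) := Subalgebra.algebraMap_mem _ v
  obtain ⟨m, o₁, h1, e2⟩ := low_j I (n := n) (fun i => (o i).2) hy
    (e1 ▸ mul_mem (pow_mem hv _) hz)
  obtain ⟨o₂, h2, e3⟩ := low_n I (hj0.trans hj) h1 hy
    (e2 ▸ e1 ▸ mul_mem hv (mul_mem (pow_mem hv _) hz))
  rw [← e2, e1, ← mul_assoc, ← mul_assoc, ← pow_succ, ← pow_add,
    show I.D ^ (j + 1) + 1 + C = C + 1 + I.D ^ (j + 1) by ring] at e3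
  rw [e3]
  exact sum_mem fun i _ => AddSubgroup.subset_closure ⟨_, (h2 i).2, (h2 i).1, _, hy i,
    Fil.le (y i).2.2 (by push_cast; linarith), rfl⟩

theorem loss : LOSS p := by
  intro R AA _ _ _ _ _ _ _ h v G _ φ Φ Γ _ H I F
  obtain ⟨j0, C, hj0, hC⟩ := dec p R AA h v G φ Φ Γ H I F
  have e0 := F.e_nonneg
  have c0 : (0 : ℝ) ≤ C := C.cast_nonneg
  have ec := mul_nonneg c0 e0
  obtain ⟨m, m1, mD⟩ : ∃ m : ℝ, 1 ≤ m ∧ (I.D : ℝ) ≤ m := ⟨_, le_max_left _ _, le_max_right _ _⟩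
  obtain ⟨A, hA⟩ : ∃ A : ℝ, A = C + C * F.e + 2 * F.e + 1 := ⟨_, rfl⟩
  have a1 : 1 ≤ A := by linarith
  have key : ∀ j : ℕ, C + C * F.e + 2 * ((I.D ^ (j + 1) : ℕ) * F.e) ≤ (A * m) ^ (j + 1) := by
    intro j
    have b1 : 1 ≤ m ^ (j + 1) := one_le_pow₀ m1
    have b2 : ((I.D ^ (j + 1) : ℕ) : ℝ) ≤ m ^ (j + 1) := by
      push_cast
      exact pow_le_pow_left₀ I.D.cast_nonneg mD _
    have b3 : A ≤ A ^ (j + 1) := le_self_pow₀ a1 j.succ_ne_zero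
    rw [mul_pow]
    refine le_trans ?_ (mul_le_mul_of_nonneg_right b3 (by linarith))
    rw [hA]
    nlinarith [mul_le_mul_of_nonneg_right b2 e0, mul_le_mul_of_nonneg_left b1 (add_nonneg c0 ec)]
  refine ⟨j0, A * m, hj0, one_le_mul_of_one_le_of_one_le a1 m1,
    mul_le_mul (by linarith) mD I.D.cast_nonneg (by linarith),
    mD.trans (le_mul_of_one_le_left (by linarith) a1), fun j hj a T1 n M A' D => ?_⟩
  have k1 := key j
  have k2 := mul_nonneg (I.D ^ (j + 1)).cast_nonneg e0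
  refine ⟨fun S _ _ τ hτ β x hx => ?_, fun f β x hx =>
    Fil.mul_le (pole_mem I F (D.gam_loss f)) hx (by linarith)⟩
  have hu : I.vi ^ (C + I.D ^ (j + 1)) ∈ I.T j := pow_mem (I.T_mono (Nat.zero_le _) I.vi_mem) _
  have h1 : ∀ w ∈ AddSubgroup.closure {x | ∃ o ∈ rtA p n (I.T j), IsIntegral R o ∧
      ∃ y ∈ I.T j, y ∈ F.b.F (β + C) ∧ x = o * y}, ∃ w' : rtA p n (I.T j),
      (w' : AA) = I.vi ^ (C + I.D ^ (j + 1)) * w ∧
        D.al τ w' ∈ (sub p _ (F.M (β + (A * m) ^ (j + 1)))).baseChange S := by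
    intro w hw
    induction hw using AddSubgroup.closure_induction with
    | mem w hw =>
      obtain ⟨o, ho, io, y, hy, hb, rfl⟩ := hw
      refine ⟨⟨_, le_rtA n (mul_mem hu hy)⟩ * ⟨o, ho⟩, by
        rw [MulMemClass.coe_mul, mul_assoc, mul_comm y], ?_⟩
      rw [map_mul, D.bot τ hτ _ (mul_mem hu hy)]
      refine bc_mul (fun z hz => ?_) (D.loss τ hτ _ io)
      refine Fil.mul_le (F.b.mul_mem (Fil.pow_mem F.vi_mem _) hb) (pole_mem I F hz) ?_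
      rw [Nat.cast_add, add_mul]
      linarith
    | zero => exact ⟨0, (mul_zero _).symm, by rw [map_zero]; exact zero_mem _⟩
    | add a b _ _ ha hb =>
      obtain ⟨a', ha, ha'⟩ := ha
      obtain ⟨b', hb, hb'⟩ := hb
      exact ⟨a' + b', by rw [AddMemClass.coe_add, ha, hb, mul_add],
        by rw [map_add]; exact add_mem ha' hb'⟩
    | neg a _ ha =>
      obtain ⟨a', ha, ha'⟩ := ha
      exact ⟨-a', by rw [NegMemClass.coe_neg, ha, mul_neg], by rw [map_neg]; exact neg_mem ha'⟩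
  obtain ⟨w, hw, h2⟩ := h1 _ (hC j hj n β x x.2 hx)
  rw [← mul_assoc, ← mul_pow, mul_comm I.vi, I.v_vi, one_pow, one_mul] at hw
  exact Subtype.ext hw ▸ h2

end P261.P
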