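import Vale.Agent.P261Z.P.Sk
import Vale.Agent.P261Z.PC.Gal

/-!
# P261, block P: descent from a finite Igusa level to a line
-/

set_option linter.all false

noncomputable section

namespace P261.P

open P261.PC P261.Cs

namespace Nvl

variable {p : ℕ} [hp : Fact p.Prime] {R AA : Type} [CommRing R] [CommRing AA] [Algebra R AA]

section nf

variable [Ch p AA] {G : Type} {Φ : G → AA →+* AA} {C : Cos.{0} (ZMod p)} (N : NF p R Φ C)

theorem op_mem {P P' : Submodule R AA} {E : Module.End R AA} (h : ∀ y ∈ P, E y ∈ P') {n : ℕ}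
    {x : C.X n} (hx : x ∈ N.NS P n) : N.op n E x ∈ N.NS P' n :=
  (N.NS_comap _ _ _ _).2 (N.NS_mono _ _ _ h hx)

theorem op_fix {P : Submodule R AA} {E : Module.End R AA} (h : ∀ y ∈ P, E y = y) {n : ℕ}
    {x : C.X n} (hx : x ∈ N.NS P n) : N.op n E x = x := by
  have h1 := op_mem N (P' := ⊥) (E := E - 1) (fun y hy => by simp [h y hy]) hx
  rwa [N.NS_bot, Submodule.mem_bot, map_sub, map_one, LinearMap.sub_apply, Module.End.one_apply,
    sub_eq_zero] at h1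

theorem mem_ker {E : Module.End R AA} {n : ℕ} {x : C.X n} (h : N.op n E x = x) :
    x ∈ N.NS (LinearMap.ker (E - 1)) n := by
  refine (N.NS_comap ⊥ (E - 1) n x).1 ?_
  rw [map_sub, map_one, LinearMap.sub_apply, Module.End.one_apply, h, sub_self]
  exact zero_mem _

theorem mem_inf {ι : Type} (S : Finset ι) (P : ι → Submodule R AA) {n : ℕ} {x : C.X n}
    (h : ∀ i, x ∈ N.NS (P i) n) : x ∈ N.NS (S.inf P) n := by
  classical
  induction S using Finset.induction_on with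
  | empty => rw [Finset.inf_empty, N.NS_top]; trivial
  | insert i S _ ih => rw [Finset.inf_insert]; exact N.NS_inf _ _ _ ⟨h i, ih⟩

theorem d_mem {P : Submodule R AA} (hP : Stb Φ P) {n : ℕ} {x : C.X n} (hx : x ∈ N.NS P n) :
    C.d n x ∈ N.NS P (n + 1) := by
  rw [HtpyAux.d_apply]
  exact sum_mem fun i _ => Submodule.smul_mem _ _ (N.NS_map P hP _ x hx)

theorem op_d {E : Module.End R AA} (h : ∀ g y, E (Φ g y) = Φ g (E y)) {n : ℕ} (x : C.X n) :
    N.op (n + 1) E (C.d n x) = C.d n (N.op n E x) := by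
  rw [HtpyAux.d_apply, HtpyAux.d_apply, map_sum]
  refine Finset.sum_congr rfl fun i _ => ?_
  rw [map_smul, N.op_map ⊤ (fun _ _ _ => trivial) E (fun g y _ => h g y) _ x
    (by rw [N.NS_top]; trivial)]

end nf

/-- the elements `y` such that `s y` lies in `T` and has a pole of order at most `A` -/
def L (v : R) (s : AA) (T : Subalgebra R AA) (A : ℕ) : Submodule R AA :=
  (Subalgebra.toSubmodule T ⊓ (Subalgebra.toSubmodule (integralClosure R AA)).comap
    (LinearMap.mulLeft R (algebraMap R AA v ^ A))).comap (LinearMap.mulLeft R s)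

theorem mem_L {v : R} {s : AA} {T : Subalgebra R AA} {A : ℕ} {y : AA} :
    y ∈ L v s T A ↔ s * y ∈ T ∧ IsIntegral R (algebraMap R AA v ^ A * (s * y)) := Iff.rfl

theorem int_mono {v : R} {y : AA} {A A' : ℕ} (h : A ≤ A')
    (hy : IsIntegral R (algebraMap R AA v ^ A * y)) :
    IsIntegral R (algebraMap R AA v ^ A' * y) := by
  obtain ⟨k, rfl⟩ := Nat.exists_eq_add_of_le' h
  rw [pow_add, mul_assoc]
  exact (isIntegral_algebraMap.pow k).mul hy

theorem L_mono {v : R} {s : AA} {T : Subalgebra R AA} {A A' : ℕ} (h : A ≤ A') :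
    L v s T A ≤ L v s T A' := fun _ hy => ⟨hy.1, int_mono h hy.2⟩

/-- the twisted action -/
def tw {Γ : Type} [Group Γ] (γ : Γ →* (AA →ₐ[R] AA)) {s s' : AA} (h : s * s' = 1) :
    Γ →* Module.End R AA where
  toFun δ := LinearMap.mulLeft R s' ∘ₗ (γ δ).toLinearMap ∘ₗ LinearMap.mulLeft R s
  map_one' := LinearMap.ext fun y => by
    show s' * γ 1 (s * y) = y
    rw [map_one, AlgHom.one_apply, ← mul_assoc, mul_comm s', h, one_mul]
  map_mul' δ δ' := LinearMap.ext fun y => by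
    show s' * γ (δ * δ') (s * y) = s' * γ δ (s * (s' * γ δ' (s * y)))
    rw [map_mul γ, AlgHom.mul_apply, ← mul_assoc s, h, one_mul]

theorem tw_apply {Γ : Type} [Group Γ] (γ : Γ →* (AA →ₐ[R] AA)) {s s' : AA} (h : s * s' = 1)
    (δ : Γ) (y : AA) : tw γ h δ y = s' * γ δ (s * y) := rfl

theorem mul_tw {Γ : Type} [Group Γ] (γ : Γ →* (AA →ₐ[R] AA)) {s s' : AA} (h : s * s' = 1)
    (δ : Γ) (y : AA) : s * tw γ h δ y = γ δ (s * y) := by
  rw [tw_apply, ← mul_assoc, h, one_mul]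

variable [Algebra (ZMod p) R] [Algebra (ZMod p) AA] [IsScalarTower (ZMod p) R AA] [Pf p AA]
  {h : ℕ} {v : R} {G : Type} [Group G] {φ : G → R →+* R} {Φ : G →* (AA →+* AA)}
  {Γ : Type} [Group Γ] {H : GF p} {C : Cos.{0} (ZMod p)} (I : IgD p h v AA φ Φ Γ H)

theorem pow_vi (n : ℕ) : algebraMap R AA v ^ n * I.vi ^ n = 1 := by
  rw [← mul_pow, I.v_vi, one_pow]

theorem tw_comm {l : G → R} {s s' : AA} (h1 : s * s' = 1)
    (h2 : ∀ g, s = algebraMap R AA (l g) * Φ g s) (δ : Γ) (g : G) (y : AA) :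
    tw I.γ h1 δ (Φ g y) = Φ g (tw I.γ h1 δ y) := by
  have h3 : Φ g s' = s' * algebraMap R AA (l g) := by
    have h4 : s * Φ g s' = algebraMap R AA (l g) := by
      conv_lhs => rw [h2 g]
      rw [mul_assoc, ← map_mul, h1, map_one, mul_one]
    rw [← h4, ← mul_assoc, mul_comm s', h1, one_mul]
  have h5 : s * Φ g y = algebraMap R AA (l g) * Φ g (s * y) := by
    rw [map_mul, ← mul_assoc, ← h2]
  rw [tw_apply, tw_apply, h5, map_mul (I.γ δ), AlgHom.commutes, map_mul (Φ g) s', I.comm, h3,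
    mul_assoc]

theorem L_stb (hv : ∀ g, ∃ β : R, φ g v * β = v) {l : G → R} {s : AA}
    (h2 : ∀ g, s = algebraMap R AA (l g) * Φ g s) (j A : ℕ) :
    Stb (fun g => Φ g) (L v s (I.T j) A) := by
  intro g y hy
  obtain ⟨β, hβ⟩ := hv g
  have h5 : s * Φ g y = algebraMap R AA (l g) * Φ g (s * y) := by
    rw [map_mul, ← mul_assoc, ← h2]
  refine mem_L.2 ⟨?_, ?_⟩
  · rw [h5]
    exact mul_mem (Subalgebra.algebraMap_mem _ _) (I.T_Φ j g _ hy.1)
  · have h6 := IsIntegral.map_of_comp_eq (φ g) (Φ g)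
      (RingHom.ext fun r => (I.semi g r).symm) (mem_L.1 hy).2
    have h7 : algebraMap R AA v ^ A * (s * Φ g y) = algebraMap R AA (l g * β ^ A) *
        Φ g (algebraMap R AA v ^ A * (s * y)) := by
      rw [h5, map_mul (Φ g) (_ ^ A), map_pow, I.semi]
      conv_lhs => rw [← hβ]
      rw [map_mul, map_mul (algebraMap R AA), map_pow]
      ring
    rw [h7]
    exact isIntegral_algebraMap.mul h6

variable (F : FlD p v I.vi (fun g => Φ g) fun δ => I.γ δ)

theorem L_le {s s' : AA} (h1 : s * s' = 1) {j : ℕ} (hs : s' ∈ I.T j) (A : ℕ) :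
    ∃ b, L v s (I.T j) A ≤ Subalgebra.toSubmodule (I.T j) ⊓ F.M b := by
  obtain ⟨n, hn⟩ := I.loc s'
  refine ⟨((n + A : ℕ) : ℝ) * F.e, fun y hy => ⟨?_, ?_⟩⟩
  · have := mul_mem hs (mem_L.1 hy).1
    rwa [← mul_assoc, mul_comm s', h1, one_mul] at this
  · have h2 := Fil.mul_le (F.int _ (hn.mul (mem_L.1 hy).2)) (Fil.pow_mem F.vi_mem (n + A))
      (zero_add _).le
    have e : algebraMap R AA v ^ n * s' * (algebraMap R AA v ^ A * (s * y)) * I.vi ^ (n + A) =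
        algebraMap R AA v ^ (n + A) * I.vi ^ (n + A) * (s * s') * y := by ring
    rwa [e, pow_vi, h1, one_mul, one_mul] at h2

theorem le_L {s : AA} {j : ℕ} (hs : s ∈ I.T j) (b : ℝ) :
    ∃ A, Subalgebra.toSubmodule (I.T j) ⊓ F.M b ≤ L v s (I.T j) A := by
  obtain ⟨n, hn⟩ := I.loc s
  obtain ⟨m, hm⟩ := F.bd b
  refine ⟨n + m, fun y hy => mem_L.2 ⟨mul_mem hs hy.1, ?_⟩⟩
  have e : algebraMap R AA v ^ (n + m) * (s * y) =
      algebraMap R AA v ^ n * s * (algebraMap R AA v ^ m * y) := by ring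
  rw [e]
  exact hn.mul (hm y hy.2)

theorem le_span {s s' : AA} (h1 : s * s' = 1) (j A : ℕ) {y : AA} (hy : y ∈ L v s (I.T j) A)
    (h2 : ∀ c : I.Gs 0 ⧸ (I.Gs j).subgroupOf (I.Gs 0), tw I.γ h1 (c.out : I.Gs 0) y = y) :
    y ∈ Submodule.span R {s' * I.vi ^ A} := by
  have h3 : s * y ∈ I.T 0 := I.T_inv 0 j (Nat.zero_le j) _ hy.1 fun δ hδ => by
    obtain ⟨u, hu⟩ := QuotientGroup.mk_out_eq_mul ((I.Gs j).subgroupOf (I.Gs 0)) ⟨δ, hδ⟩
    have h4 := mul_tw I.γ h1 (((⟨δ, hδ⟩ : I.Gs 0) :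
      I.Gs 0 ⧸ (I.Gs j).subgroupOf (I.Gs 0)).out : I.Gs 0) y
    rw [h2, hu, Subgroup.coe_mul, map_mul I.γ, AlgHom.mul_apply,
      I.T_fix j (u : I.Gs 0) u.2 _ (mem_L.1 hy).1] at h4
    exact h4.symm
  obtain ⟨r, hr⟩ := I.T_zero _ (mul_mem (pow_mem (Subalgebra.algebraMap_mem _ v) A) h3)
    (mem_L.1 hy).2
  refine Submodule.mem_span_singleton.2 ⟨r, ?_⟩
  have e : algebraMap R AA v ^ A * (s * y) * (s' * I.vi ^ A) =
      algebraMap R AA v ^ A * I.vi ^ A * (s * s') * y := by ring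
  rw [Algebra.smul_def, hr, e, pow_vi, h1, one_mul, one_mul]

theorem trace (N : NF p R (fun g => Φ g) C) {s s' : AA} (h1 : s * s' = 1) (j A A' t : ℕ)
    (hA : A + I.D ^ (j + 1) ≤ A') : ∃ μ : Module.End (ZMod p) (C.X t),
    ∀ x ∈ N.NS (L v s (I.T j) A) t, μ x ∈ N.NS (L v s (I.T j) A') t ∧
      ∑ᶠ δ : I.Gs 0 ⧸ (I.Gs j).subgroupOf (I.Gs 0), N.op t (tw I.γ h1 (δ.out : I.Gs 0))
        (μ (N.op t (tw I.γ h1 (δ.out⁻¹ : I.Gs 0)) x)) = x := by
  obtain ⟨τ, hτ, hi, n, hn, e⟩ := I.tr 0 j (Nat.zero_le j)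
  have := I.Gs_fin 0 j (Nat.zero_le j)
  have := Fintype.ofFinite (I.Gs 0 ⧸ (I.Gs j).subgroupOf (I.Gs 0))
  refine ⟨N.op t (LinearMap.mulLeft R (τ * I.vi ^ n)), fun x hx =>
    ⟨op_mem N (fun y hy => mem_L.2 ⟨?_, ?_⟩) hx, ?_⟩⟩
  · rw [LinearMap.mulLeft_apply, mul_left_comm]
    exact mul_mem (mul_mem hτ (pow_mem (I.T_mono (Nat.zero_le j) I.vi_mem) n)) hy.1
  · refine int_mono (A := A + n) (by omega) ?_
    have e2 : algebraMap R AA v ^ (A + n) * (s * (τ * I.vi ^ n * y)) =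
        algebraMap R AA v ^ n * I.vi ^ n * (τ * (algebraMap R AA v ^ A * (s * y))) := by ring
    rw [LinearMap.mulLeft_apply, e2, pow_vi, one_mul]
    exact hi.mul (mem_L.1 hy).2
  · rw [finsum_eq_sum_of_fintype] at e ⊢
    have e3 : ∑ δ : I.Gs 0 ⧸ (I.Gs j).subgroupOf (I.Gs 0), tw I.γ h1 (δ.out : I.Gs 0) *
        (LinearMap.mulLeft R (τ * I.vi ^ n) * tw I.γ h1 (δ.out⁻¹ : I.Gs 0)) = 1 := by
      refine LinearMap.ext fun y => ?_
      have e4 : ∀ δ : I.Gs 0, (tw I.γ h1 δ * (LinearMap.mulLeft R (τ * I.vi ^ n) *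
          tw I.γ h1 (δ⁻¹ : I.Gs 0))) y = I.γ δ τ * (I.vi ^ n * y) := fun δ => by
        rw [Module.End.mul_apply, Module.End.mul_apply, LinearMap.mulLeft_apply, tw_apply,
          mul_left_comm s, mul_tw, map_mul (I.γ δ), ← AlgHom.mul_apply, ← map_mul I.γ,
          InvMemClass.coe_inv, mul_inv_cancel, map_one, AlgHom.one_apply, map_mul (I.γ δ), map_pow,
          I.T_fix 0 _ δ.2 _ I.vi_mem, mul_left_comm, ← mul_assoc s', mul_comm s', h1, one_mul,
          mul_assoc]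
      rw [LinearMap.sum_apply, Finset.sum_congr rfl fun δ _ => e4 _, ← Finset.sum_mul, e,
        ← mul_assoc, pow_vi, one_mul, Module.End.one_apply]
    have e5 := congrArg (fun E => N.op t E x) e3
    simpa only [map_sum, map_mul, map_one, LinearMap.sum_apply, Module.End.mul_apply,
      Module.End.one_apply] using e5

end Nvl

open Nvl in
theorem nvl {p : ℕ} [Fact p.Prime] (hB : BN p) : NVL p := by
  intro R AA _ _ _ _ _ _ _ h v G _ φ Φ Γ _ H I F C N hh hG hv l s s' ⟨⟨j1, hs, hs'⟩, h1, h2⟩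
  obtain ⟨b0, j0, hb⟩ := hB R AA h v G φ Φ Γ H I F C N hh hG
  refine ⟨b0, fun n => ?_⟩
  obtain ⟨j, hj0, hj1⟩ : ∃ j, j0 ≤ j ∧ j1 ≤ j := ⟨max j0 j1, le_max_left _ _, le_max_right _ _⟩
  have step : ∀ A t, ∃ A', ∀ x ∈ N.NS (L v s (I.T j) A) (t + 1), C.d _ x = 0 →
      ∃ y ∈ N.NS (L v s (I.T j) A') t, x = C.d t y := fun A t => by
    obtain ⟨b, hb1⟩ := L_le I F h1 (I.T_mono hj1 hs') A
    obtain ⟨b', hb2⟩ := hb j hj0 t b
    obtain ⟨A', hb3⟩ := le_L I F (I.T_mono hj1 hs) b'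
    refine ⟨A', fun x hx hd => ?_⟩
    obtain ⟨y, hy, e⟩ := hb2 x (N.NS_mono _ _ _ hb1 hx) hd
    exact ⟨y, N.NS_mono _ _ _ hb3 hy, e.symm⟩
  choose nx hnx using step
  let a : ℕ → ℕ := fun i => Nat.rec 0
    (fun _ A => A + I.D ^ (j + 1) + (Finset.range (n + 1)).sup (nx A)) i
  have ha : ∀ i, a (i + 1) = a i + I.D ^ (j + 1) + (Finset.range (n + 1)).sup (nx (a i)) :=
    fun _ => rfl
  have hGH : GH C.d (fun t => (N.op t : Module.End R AA →* _).comp
      ((tw I.γ h1).comp (I.Gs 0).subtype)) (fun _ => 1) (fun i => (I.Gs i).subgroupOf (I.Gs 0))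
      {j} (fun i _ => N.NS (L v s (I.T j) (a i))) (2 * n + 1) n :=
    { dd := fun t x => Cs.dd _ C t x
      inj0 := fun _ _ x _ => b0 x
      ρd := fun t g x => op_d N (tw_comm I h1 h2 g) x
      fd := fun _ _ => rfl
      fρ := fun _ _ _ => rfl
      anti := fun _ _ h => Subgroup.comap_mono (I.Gs_anti h)
      normal := fun i _ => (I.Gs_normal i).subgroupOf _
      fin := fun i _ => I.Gs_fin 0 i (Nat.zero_le i)
      mono := fun _ _ _ _ _ => le_rfl
      Md := fun i _ t x hx => d_mem N (L_stb I hv h2 j _) hx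
      Mρ := fun i _ t g x hx => op_mem N (fun y hy => mem_L.2 ⟨by
        rw [MonoidHom.comp_apply, mul_tw]
        exact I.T_γ j _ _ hy.1, by
        have := (mem_L.1 hy).2.map (I.γ ((I.Gs 0).subtype g))
        rwa [map_mul, map_pow, AlgHom.commutes, ← mul_tw I.γ h1] at this⟩) hx
      Mf := fun i _ _ t x hx => N.NS_mono _ _ _ (L_mono (by rw [ha]; omega)) hx
      fix := fun i j' hj' t g hg x hx => op_fix N (fun y hy => by
        obtain rfl : j' = j := hj'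
        rw [MonoidHom.comp_apply, tw_apply, I.T_fix _ _ hg _ (mem_L.1 hy).1, ← mul_assoc,
          mul_comm s', h1, one_mul]) hx
      tr := fun i _ j' hj' t => by
        obtain rfl : j' = j := hj'
        exact trace I N h1 j' _ _ t (by rw [ha]; omega)
      null := fun i _ _ _ t ht x hx hd => by
        obtain ⟨y, hy, e⟩ := hnx _ t x hx hd
        have : nx (a i) t ≤ (Finset.range (n + 1)).sup (nx (a i)) :=
          Finset.le_sup (Finset.mem_range.2 (Nat.lt_succ_of_le ht))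
        exact ⟨j, rfl, y, N.NS_mono _ _ _ (L_mono (by rw [ha]; omega)) hy, e⟩ }
  refine ⟨a (0 + (2 * n + 1)), fun y hy hd => ?_⟩
  obtain ⟨-, -, z, hz, e1, e2⟩ := hGH.desc n le_rfl 0 (by omega) j rfl y
    (N.NS_mono _ _ _ (Submodule.span_le.2 (Set.singleton_subset_iff.2 (mem_L.2 ⟨by
      rw [h1]; exact one_mem _, by
      rw [h1, mul_one]; exact isIntegral_algebraMap.pow _⟩))) hy) hd
    fun g => op_fix N (fun w hw => by
      obtain ⟨r, rfl⟩ := Submodule.mem_span_singleton.1 hw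
      rw [map_smul, MonoidHom.comp_apply, tw_apply, h1, map_one, mul_one]) hy
  have := I.Gs_fin 0 j (Nat.zero_le j)
  have := Fintype.ofFinite (I.Gs 0 ⧸ (I.Gs j).subgroupOf (I.Gs 0))
  refine ⟨z, N.NS_mono _ _ _ ?_ (N.NS_inf _ _ _ ⟨hz, mem_inf N Finset.univ
    (fun c : I.Gs 0 ⧸ (I.Gs j).subgroupOf (I.Gs 0) =>
      LinearMap.ker (tw I.γ h1 (c.out : I.Gs 0) - 1)) fun c => mem_ker N (e1 c.out)⟩), ?_⟩
  · rintro w ⟨hw, hw'⟩
    exact le_span I h1 j _ hw fun c =>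
      sub_eq_zero.1 (Submodule.mem_finsetInf.1 hw' c (Finset.mem_univ c))
  · rw [← e2, one_pow]
    rfl

end P261.P
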