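import Vale.Agent.P261Z.P.Sk

/-!
# P261, block P: linear retractions onto the finite levels
-/

noncomputable section

namespace P261.P

open P261.PC P261.Cs

namespace Retr

section glue

variable {R A : Type} [CommRing R] [AddCommGroup A] [Module R A]

/-- `ρ` is a linear retraction of `Q` onto `P` -/
structure IsRt (P Q : Submodule R A) (ρ : A → A) : Prop where
  mem : ∀ x ∈ Q, ρ x ∈ P
  fix : ∀ x ∈ P, ρ x = x
  add : ∀ x ∈ Q, ∀ y ∈ Q, ρ (x + y) = ρ x + ρ y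
  smul : ∀ r : R, ∀ x ∈ Q, ρ (r • x) = r • ρ x

theorem IsRt.comp {P Q Q' : Submodule R A} {ρ ρ' : A → A} (h : IsRt P Q ρ) (h' : IsRt Q Q' ρ')
    (hle : P ≤ Q) : IsRt P Q' fun x => ρ (ρ' x) where
  mem x hx := h.mem _ (h'.mem x hx)
  fix x hx := by rw [h'.fix x (hle hx), h.fix x hx]
  add x hx y hy := by rw [h'.add x hx y hy, h.add _ (h'.mem x hx) _ (h'.mem y hy)]
  smul r x hx := by rw [h'.smul r x hx, h.smul r _ (h'.mem x hx)]

/-- the composition of the first `k` maps -/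
def cp (ρ : ℕ → A → A) : ℕ → A → A
  | 0 => fun x => x
  | k + 1 => fun x => cp ρ k (ρ k x)

theorem glue (M : ℕ → Submodule R A) (hM : Monotone M) (hU : ∀ a, ∃ k, a ∈ M k)
    (h : ∀ k, ∃ ρ, IsRt (M k) (M (k + 1)) ρ) : ∃ e : A →ₗ[R] M 0, ∀ x : M 0, e x = x := by
  choose ρ hρ using h
  choose κ hκ using hU
  have h1 : ∀ k, IsRt (M 0) (M k) (cp ρ k) := by
    intro k
    induction k with
    | zero => exact ⟨fun _ hx => hx, fun _ _ => rfl, fun _ _ _ _ => rfl, fun _ _ _ => rfl⟩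
    | succ k ih => exact ih.comp (hρ k) (hM (Nat.zero_le k))
  have h2 : ∀ k k', k ≤ k' → ∀ x ∈ M k, cp ρ k' x = cp ρ k x := by
    intro k k' hk x hx
    induction k', hk using Nat.le_induction with
    | base => rfl
    | succ k' hk ih =>
      show cp ρ k' (ρ k' x) = _
      rw [(hρ k').fix x (hM hk hx), ih]
  have h3 : ∀ k, ∀ x ∈ M k, cp ρ (κ x) x = cp ρ k x := fun k x hx => by
    rw [← h2 _ _ (le_max_left (κ x) k) x (hκ x), h2 _ _ (le_max_right (κ x) k) x hx]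
  refine ⟨⟨⟨fun x => ⟨cp ρ (κ x) x, (h1 _).mem x (hκ x)⟩, fun x y => Subtype.ext ?_⟩,
    fun r x => Subtype.ext ?_⟩, fun x => Subtype.ext ((h1 _).fix x x.2)⟩
  · have hx := hM (le_max_left (κ x) (κ y)) (hκ x)
    have hy := hM (le_max_right (κ x) (κ y)) (hκ y)
    show cp ρ _ (x + y) = cp ρ _ x + cp ρ _ y
    rw [h3 _ _ (add_mem hx hy), h3 _ _ hx, h3 _ _ hy, (h1 _).add x hx y hy]
  · show cp ρ _ (r • x) = r • cp ρ _ x
    rw [h3 _ _ ((M _).smul_mem r (hκ x)), (h1 _).smul r x (hκ x)]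

end glue

variable {p : ℕ} [hp : Fact p.Prime] {R AA : Type} [CommRing R] [CommRing AA] [Algebra R AA]
  [Pf p AA]

theorem le_rtA (m : ℕ) (T : Subalgebra R AA) : T ≤ rtA p m T := fun _ hx => T.pow_mem hx _

theorem rtA_mono {m m' : ℕ} (hm : m ≤ m') {T T' : Subalgebra R AA} (hT : T ≤ T') :
    rtA p m T ≤ rtA p m' T' := fun x hx => by
  obtain ⟨d, rfl⟩ := Nat.exists_eq_add_of_le hm
  rw [mem_rtA, pow_add, pow_mul]
  exact hT (T.pow_mem hx _)

theorem pow_mem_one {m : ℕ} {T : Subalgebra R AA} {x : AA} (hx : x ∈ rtA p (m + 1) T) :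
    x ^ p ^ m ∈ rtA p 1 T := by
  rw [mem_rtA, ← pow_mul, ← pow_add]
  exact hx

omit hp in
theorem fix_of_rt {m : ℕ} {f : AA →ₐ[R] AA} {x : AA} (h : f (x ^ p ^ m) = x ^ p ^ m) : f x = x :=
  pow_pp_inj m (by rw [← map_pow, h])

/-- the step in the direction of the roots -/
theorem root_step (T : Subalgebra R AA) (π : rtA p 1 T →+ AA) (h1 : π 1 = 1) (h2 : ∀ x, π x ∈ T)
    (h3 : ∀ y x : rtA p 1 T, (y : AA) ∈ T → π (y * x) = y * π x) (m : ℕ) :
    ∃ ρ, IsRt (Subalgebra.toSubmodule (rtA p m T)) (Subalgebra.toSubmodule (rtA p (m + 1) T))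
      ρ := by
  classical
  let π' : AA → AA := fun x => if h : x ∈ rtA p 1 T then π ⟨x, h⟩ else 0
  have e : ∀ x (h : x ∈ rtA p 1 T), π' x = π ⟨x, h⟩ := fun x h => dif_pos h
  have e3 : ∀ y ∈ T, ∀ x ∈ rtA p 1 T, π' (y * x) = y * π' x := fun y hy x hx => by
    rw [e _ (mul_mem (le_rtA 1 T hy) hx), e _ hx]
    exact h3 ⟨y, le_rtA 1 T hy⟩ ⟨x, hx⟩ hy
  refine ⟨fun x => (rt p AA ^ m) (π' (x ^ p ^ m)), fun x hx => ?_, fun x hx => ?_,
    fun x hx y hy => ?_, fun r x hx => ?_⟩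
  · show _ ^ p ^ m ∈ T
    rw [rt_pow_pp, e _ (pow_mem_one hx)]
    exact h2 _
  · have h4 := e3 _ hx 1 (one_mem _)
    rw [mul_one, e _ (one_mem _), show π ⟨1, one_mem _⟩ = 1 from h1, mul_one] at h4
    show (rt p AA ^ m) (π' (x ^ p ^ m)) = x
    rw [h4, rt_pow_pp']
  · show (rt p AA ^ m) (π' ((x + y) ^ p ^ m)) = _
    rw [← map_add, add_pow_pp, e _ (add_mem (pow_mem_one hx) (pow_mem_one hy)),
      e _ (pow_mem_one hx), e _ (pow_mem_one hy), ← map_add]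
    rfl
  · show (rt p AA ^ m) (π' ((r • x) ^ p ^ m)) = _
    rw [Algebra.smul_def, mul_pow, e3 _ (T.pow_mem (T.algebraMap_mem r) _) _ (pow_mem_one hx),
      map_mul, rt_pow_pp', Algebra.smul_def]

variable [Algebra (ZMod p) R] [Algebra (ZMod p) AA] [IsScalarTower (ZMod p) R AA] {h : ℕ} {v : R}
  {G : Type} [Group G] {φ : G → R →+* R} {Φ : G →* (AA →+* AA)} {Γ : Type} [Group Γ] {H : GF p}

/-- the step in the direction of the Igusa levels -/
theorem trace_step (I : IgD p h v AA φ Φ Γ H) {j j' : ℕ} (hj : j ≤ j') (m : ℕ) :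
    ∃ ρ, IsRt (Subalgebra.toSubmodule (rtA p m (I.T j)))
      (Subalgebra.toSubmodule (rtA p m (I.T j'))) ρ := by
  obtain ⟨t, ht, -, N, -, hN⟩ := I.tr j j' hj
  have := I.Gs_fin j j' hj
  let _ : Fintype (I.Gs j ⧸ (I.Gs j').subgroupOf (I.Gs j)) := Fintype.ofFinite _
  rw [finsum_eq_sum_of_fintype] at hN
  have hf : ∀ i, ∀ δ ∈ I.Gs i, ∀ x ∈ rtA p m (I.T i), I.γ δ x = x := fun i δ hδ x hx =>
    fix_of_rt (I.T_fix i δ hδ _ hx)
  have hvi : ∀ i, I.vi ^ N ∈ I.T i := fun i => pow_mem (I.T_mono (Nat.zero_le i) I.vi_mem) N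
  refine ⟨fun x => ∑ δ : I.Gs j ⧸ (I.Gs j').subgroupOf (I.Gs j),
    I.γ (δ.out : I.Gs j) (t * (I.vi ^ N * x)), fun x hx => ?_, fun x hx => ?_,
    fun x _ y _ => ?_, fun r x _ => ?_⟩
  · have hy : t * (I.vi ^ N * x) ∈ rtA p m (I.T j') :=
      mul_mem (le_rtA m _ ht) (mul_mem (le_rtA m _ (hvi j')) hx)
    generalize t * (I.vi ^ N * x) = y at hy
    refine I.T_inv j j' hj _ ?_ fun ε hε => ?_
    · refine (sum_mem fun δ _ => ?_ : _ ∈ rtA p m (I.T j'))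
      rw [mem_rtA, ← map_pow]
      exact I.T_γ j' _ _ hy
    · rw [map_pow]
      congr 1
      rw [map_sum]
      refine Eq.trans ?_ (Equiv.sum_comp (MulAction.toPerm (⟨ε, hε⟩ : I.Gs j)) _)
      refine Finset.sum_congr rfl fun δ _ => ?_
      obtain ⟨k, hk⟩ := QuotientGroup.mk_out_eq_mul ((I.Gs j').subgroupOf (I.Gs j))
        ((⟨ε, hε⟩ : I.Gs j) • δ.out)
      rw [MulAction.Quotient.mk_smul_out] at hk
      show _ = I.γ (((⟨ε, hε⟩ : I.Gs j) • δ).out : I.Gs j) y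
      rw [hk, smul_eq_mul, Subgroup.coe_mul, Subgroup.coe_mul, map_mul, map_mul, AlgHom.mul_apply,
        AlgHom.mul_apply, hf j' ((k : I.Gs j) : Γ) k.2 y hy]
  · have hy : I.vi ^ N * x ∈ rtA p m (I.T j) := mul_mem (le_rtA m _ (hvi j)) hx
    show ∑ δ : I.Gs j ⧸ (I.Gs j').subgroupOf (I.Gs j), _ = x
    rw [Finset.sum_congr rfl fun δ _ => by rw [map_mul, hf j _ (δ.out : I.Gs j).2 _ hy],
      ← Finset.sum_mul, hN, ← mul_assoc, ← mul_pow, I.v_vi, one_pow, one_mul]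
  · simp only [mul_add, map_add, Finset.sum_add_distrib]
  · simp only [mul_smul_comm, map_smul, Finset.smul_sum]

end Retr

variable (p : ℕ) [hp : Fact p.Prime]

theorem retr : RETR p := by
  intro R AA _ _ _ _ _ _ _ h v G _ φ Φ Γ _ H I j n hj
  refine Retr.glue (fun k => Subalgebra.toSubmodule (rtA p (n + k) (I.T (j + k)))) ?_ ?_ ?_
  · exact fun k k' hk => Retr.rtA_mono (by omega) (I.T_mono (by omega))
  · intro a
    obtain ⟨n', j', ha⟩ := I.T_exh a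
    exact ⟨n' + j', Retr.rtA_mono (m := n') (by omega) (I.T_mono (by omega)) ha⟩
  · intro k
    obtain ⟨π, h1, h2, h3, -⟩ := I.ret (j + (k + 1)) (by omega) 1
    obtain ⟨ρ, hρ⟩ := Retr.trace_step I (show j + k ≤ j + (k + 1) by omega) (n + k)
    obtain ⟨ρ', hρ'⟩ := Retr.root_step _ π h1 h2 h3 (n + k)
    exact ⟨_, hρ.comp hρ' (Retr.rtA_mono le_rfl (I.T_mono (by omega)))⟩

end P261.P
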