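import Vale.Agent.P261Z.P.Sk

/-!
# P261, block P: transfer of a torsor structure from the ring to the complex
-/

noncomputable section

namespace P261.P

open scoped TensorProduct
open P261.PC P261.Cs TensorProduct

namespace Trf

section gen

variable {k : Type} [Field k] {S S' : Type} [CommRing S] [Algebra k S] [CommRing S'] [Algebra k S']
  {V W : Type} [AddCommGroup V] [Module k V] [AddCommGroup W] [Module k W]

/-- the component along a linear form -/
def cp (l : S →ₗ[k] k) : S ⊗[k] V →ₗ[k] V := (TensorProduct.lid k V).toLinearMap ∘ₗ l.rTensor V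

@[simp] theorem cp_tmul (l : S →ₗ[k] k) (s : S) (v : V) : cp l (s ⊗ₜ[k] v) = l s • v := by
  simp [cp]

theorem cp_lTensor (l : S →ₗ[k] k) (f : V →ₗ[k] W) (z : S ⊗[k] V) :
    cp l (f.lTensor S z) = f (cp l z) := by
  induction z using TensorProduct.induction_on with
  | zero => simp
  | tmul s v => simp
  | add x y hx hy => simp only [map_add, hx, hy]

theorem exists_repr (z : S ⊗[k] V) : ∃ (ι : Type) (t : Finset ι) (b : ι → S) (l : ι → S →ₗ[k] k),
    z = ∑ i ∈ t, b i ⊗ₜ[k] cp (l i) z := by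
  classical
  let b := Module.Basis.ofVectorSpace k S
  obtain ⟨c, hc⟩ := TensorProduct.eq_repr_basis_left b z
  refine ⟨_, c.support, b, b.coord, ?_⟩
  have h : ∀ i, cp (b.coord i) z = c i := by
    intro i
    rw [← hc, Finsupp.sum, map_sum]
    simp only [cp_tmul, Module.Basis.coord_apply, Module.Basis.repr_self]
    rw [Finset.sum_eq_single i]
    · simp
    · intro j _ hj
      simp [hj]
    · intro hi
      simp [Finsupp.notMem_support_iff.1 hi]
  simp only [h]
  exact hc.symm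

theorem mem_bc {P : Submodule k V} {z : S ⊗[k] V} :
    z ∈ P.baseChange S ↔ ∀ l : S →ₗ[k] k, cp l z ∈ P := by
  constructor
  · rintro ⟨w, rfl⟩ l
    rw [LinearMap.baseChange_eq_ltensor, cp_lTensor]
    exact (cp l w).2
  · intro h
    obtain ⟨ι, t, b, l, e⟩ := exists_repr z
    rw [e]
    exact sum_mem fun i _ => Submodule.tmul_mem_baseChange_of_mem _ (h _)

theorem ext_cp {z z' : S ⊗[k] V} (h : ∀ l : S →ₗ[k] k, cp l z = cp l z') : z = z' := by
  have : z - z' ∈ (⊥ : Submodule k V).baseChange S :=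
    mem_bc.2 fun l => by rw [map_sub, h l, sub_self]; exact zero_mem _
  rwa [Submodule.baseChange_bot, Submodule.mem_bot, sub_eq_zero] at this

theorem sum_basis {ι : Type} [Fintype ι] (b : Module.Basis ι k S) (z : S ⊗[k] V) :
    ∑ i, b i ⊗ₜ[k] cp (b.coord i) z = z := by
  induction z using TensorProduct.induction_on with
  | zero => simp
  | tmul s v =>
    simp only [cp_tmul, ← smul_tmul, Module.Basis.coord_apply]
    rw [← sum_tmul, b.sum_repr]
  | add x y hx hy => simp only [map_add, tmul_add, Finset.sum_add_distrib, hx, hy]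

variable {E : Type} [Ring E] [Algebra k E]

/-- evaluation of an element of `S ⊗ E` in a representation -/
def ev (ρ : E →ₐ[k] Module.End k V) : S ⊗[k] E →ₗ[k] V →ₗ[k] S ⊗[k] V :=
  TensorProduct.lift
    ((LinearMap.llcomp k V V (S ⊗[k] V) ∘ₗ TensorProduct.mk k S V).compl₂ ρ.toLinearMap)

variable (ρ : E →ₐ[k] Module.End k V)

@[simp] theorem ev_tmul (s : S) (e : E) (x : V) : ev ρ (s ⊗ₜ[k] e) x = s ⊗ₜ[k] ρ e x := rfl

theorem cp_ev (l : S →ₗ[k] k) (ξ : S ⊗[k] E) (x : V) : cp l (ev ρ ξ x) = ρ (cp l ξ) x := by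
  induction ξ using TensorProduct.induction_on with
  | zero => simp
  | tmul s v => simp
  | add a b ha hb => simp only [map_add, LinearMap.add_apply, ha, hb]

theorem ev_rTensor (f : S →ₗ[k] S') (ξ : S ⊗[k] E) (x : V) :
    ev ρ (f.rTensor E ξ) x = f.rTensor V (ev ρ ξ x) := by
  induction ξ using TensorProduct.induction_on with
  | zero => simp
  | tmul s v => simp
  | add a b ha hb => simp only [map_add, LinearMap.add_apply, ha, hb]

theorem ev_mul (ξ ξ' : S ⊗[k] E) (x : V) :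
    ev ρ (ξ * ξ') x = (ev ρ ξ).liftBaseChange S (ev ρ ξ' x) := by
  induction ξ' using TensorProduct.induction_on with
  | zero => simp
  | tmul s' e' =>
    induction ξ using TensorProduct.induction_on with
    | zero => simp
    | tmul s e => simp [smul_tmul', mul_comm s s']
    | add a b ha hb =>
      rw [add_mul, map_add, LinearMap.add_apply, ha, hb]
      simp
  | add a b ha hb => simp only [mul_add, map_add, LinearMap.add_apply, ha, hb]

theorem ev_one (x : V) : ev ρ (1 : S ⊗[k] E) x = 1 ⊗ₜ[k] x := by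
  rw [Algebra.TensorProduct.one_def, ev_tmul, map_one, Module.End.one_apply]

theorem ev_mul_one (ξ : S ⊗[k] E) (e : E) (x : V) :
    ev ρ (ξ * (1 : S) ⊗ₜ[k] e) x = ev ρ ξ (ρ e x) := by
  rw [ev_mul, ev_tmul, LinearMap.liftBaseChange_one_tmul]

theorem ev_one_mul (ξ : S ⊗[k] E) (e : E) (x : V) :
    ev ρ ((1 : S) ⊗ₜ[k] e * ξ) x = LinearMap.lTensor S (ρ e) (ev ρ ξ x) := by
  induction ξ using TensorProduct.induction_on with
  | zero => simp
  | tmul s v => simp
  | add a b ha hb => simp only [mul_add, map_add, LinearMap.add_apply, ha, hb]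

theorem map₂_eq {O : Type} [AddCommGroup O] [Module k O] (μ : O →ₗ[k] E) (w : S ⊗[k] O)
    (z : S ⊗[k] V) :
    TensorProduct.map₂ (LinearMap.mul k S) (ρ.toLinearMap ∘ₗ μ) w z =
      (ev ρ (μ.lTensor S w)).liftBaseChange S z := by
  induction z using TensorProduct.induction_on with
  | zero => simp
  | tmul s' x =>
    induction w using TensorProduct.induction_on with
    | zero => simp
    | tmul s o => simp [map₂_apply_tmul, smul_tmul', mul_comm s s']
    | add a b ha hb =>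
      rw [map_add, LinearMap.add_apply, ha, hb]
      simp
  | add a b ha hb => simp only [map_add, ha, hb]

end gen

variable {p : ℕ} [hp : Fact p.Prime] {R AA : Type} [CommRing R] [CommRing AA] [Algebra R AA]
  [Algebra (ZMod p) R] [Algebra (ZMod p) AA] [IsScalarTower (ZMod p) R AA]

variable (p R AA) in
/-- the tautological representation -/
def r0 : Module.End R AA →ₐ[ZMod p] Module.End (ZMod p) AA where
  toFun E := E.restrictScalars (ZMod p)
  map_one' := rfl
  map_mul' _ _ := rfl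
  map_zero' := rfl
  map_add' _ _ := rfl
  commutes' _ := rfl

@[simp] theorem r0_apply (E : Module.End R AA) (y : AA) : r0 p R AA E y = E y := rfl

variable (p R AA) in
/-- multiplication operators -/
def mu : AA →ₗ[ZMod p] Module.End R AA := (LinearMap.mul R AA).restrictScalars (ZMod p)

@[simp] theorem mu_apply (a y : AA) : mu p R AA a y = a * y := rfl

theorem exists_xi {S : Type} [CommRing S] [Algebra (ZMod p) S] [Module.Finite (ZMod p) S]
    (α : AA →ₗ[ZMod p] S ⊗[ZMod p] AA)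
    (hα : ∀ (r : R) y, α (r • y) =
      LinearMap.lTensor S (LinearMap.mulLeft (ZMod p) (algebraMap R AA r)) (α y)) :
    ∃ ξ : S ⊗[ZMod p] Module.End R AA, ∀ y, ev (r0 p R AA) ξ y = α y := by
  let b := Module.finBasis (ZMod p) S
  let F : (S →ₗ[ZMod p] ZMod p) → Module.End R AA := fun l =>
    { toFun := fun y => cp l (α y)
      map_add' := fun x y => by rw [map_add, map_add]
      map_smul' := fun r y => by
        rw [hα, cp_lTensor, RingHom.id_apply, Algebra.smul_def]
        rfl }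
  refine ⟨∑ i, b i ⊗ₜ F (b.coord i), fun y => ?_⟩
  rw [map_sum, LinearMap.sum_apply]
  exact sum_basis b (α y)

section nf

variable [Pf p AA] {G : Type} {Φ : G → AA →+* AA} {C : Cos.{0} (ZMod p)} (N : NF p R Φ C)

/-- the operators as a map of algebras -/
def opA (n : ℕ) : Module.End R AA →ₐ[ZMod p] Module.End (ZMod p) (C.X n) :=
  AlgHom.mk' (N.op n) fun c x => ZMod.map_smul (N.op n) c x

@[simp] theorem opA_apply (n : ℕ) (E : Module.End R AA) : opA N n E = N.op n E := rfl

omit [Algebra (ZMod p) R] [Algebra (ZMod p) AA] [IsScalarTower (ZMod p) R AA] in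
theorem op_congr {P : Submodule R AA} {E E' : Module.End R AA} (h : ∀ y ∈ P, E y = E' y) {n : ℕ}
    {x : C.X n} (hx : x ∈ N.NS P n) : N.op n E x = N.op n E' x := by
  have : N.op n (E - E') x ∈ N.NS ⊥ n :=
    (N.NS_comap _ _ n x).2 (N.NS_mono _ _ n (fun y hy => by simp [h y hy]) hx)
  rwa [N.NS_bot, Submodule.mem_bot, map_sub, LinearMap.sub_apply, sub_eq_zero] at this

variable {S : Type} [CommRing S] [Algebra (ZMod p) S]

theorem t0 {P : Submodule R AA} {ξ ξ' : S ⊗[ZMod p] Module.End R AA}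
    (h : ∀ y ∈ P, ev (r0 p R AA) ξ y = ev (r0 p R AA) ξ' y) {n : ℕ} {x : C.X n}
    (hx : x ∈ N.NS P n) : ev (opA N n) ξ x = ev (opA N n) ξ' x := by
  refine ext_cp fun l => ?_
  rw [cp_ev, cp_ev]
  refine op_congr N (fun y hy => ?_) hx
  rw [← r0_apply (p := p), ← cp_ev, h y hy, cp_ev, r0_apply]

theorem t1 {P P' : Submodule R AA} {ξ : S ⊗[ZMod p] Module.End R AA}
    (h : ∀ y ∈ P, ∀ l : S →ₗ[ZMod p] ZMod p, cp l (ev (r0 p R AA) ξ y) ∈ P') {n : ℕ} {x : C.X n}
    (hx : x ∈ N.NS P n) : ev (opA N n) ξ x ∈ (N.NS P' n).baseChange S := by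
  refine mem_bc.2 fun l => ?_
  rw [cp_ev]
  refine (N.NS_comap _ _ n x).2 (N.NS_mono _ _ n (fun y hy => ?_) hx)
  have := h y hy l
  rwa [cp_ev] at this

theorem t2 {P : Submodule R AA} (hP : Stb Φ P) {ξ : S ⊗[ZMod p] Module.End R AA}
    (h : ∀ g, ∀ y ∈ P, ev (r0 p R AA) ξ (Φ g y) = (lin p (Φ g)).lTensor S (ev (r0 p R AA) ξ y))
    {n : ℕ} {x : C.X n} (hx : x ∈ N.NS P n) :
    ev (opA N (n + 1)) ξ (C.d n x) = (C.d n).lTensor S (ev (opA N n) ξ x) := by
  refine ext_cp fun l => ?_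
  rw [cp_lTensor, cp_ev, cp_ev]
  have h1 : ∀ g, ∀ y ∈ P, cp l ξ (Φ g y) = Φ g (cp l ξ y) := fun g y hy => by
    rw [← r0_apply (p := p), ← cp_ev, h g y hy, cp_lTensor, cp_ev]
    rfl
  simp only [Cos.d, LinearMap.sum_apply, LinearMap.smul_apply, map_sum, map_smul, opA_apply]
  exact Finset.sum_congr rfl fun i _ => by rw [N.op_map P hP _ h1 _ x hx]

/-- the Frobenius twist of an operator -/
def tw (E : Module.End R AA) : Module.End R AA where
  toFun y := rt p AA (E (y ^ p))
  map_add' x y := by rw [add_pow_p, map_add, map_add]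
  map_smul' r y := by
    rw [smul_pow, map_smul, Algebra.smul_def, map_mul, map_pow, rt_pow', RingHom.id_apply,
      Algebra.smul_def]

omit [Algebra (ZMod p) R] [Algebra (ZMod p) AA] [IsScalarTower (ZMod p) R AA] in
theorem fr_op_pow (h : ℕ) (E : Module.End R AA) : ∃ E' : Module.End R AA,
    (∀ y, E (y ^ p ^ h) = E' y ^ p ^ h) ∧ ∀ n x,
      N.op n E (((N.fr.app n : Module.End (ZMod p) (C.X n)) ^ h) x) =
        ((N.fr.app n : Module.End (ZMod p) (C.X n)) ^ h) (N.op n E' x) := by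
  induction h with
  | zero => exact ⟨E, by simp, by simp⟩
  | succ h ih =>
    obtain ⟨E', h1, h2⟩ := ih
    have h3 : ∀ y, E' (y ^ p) = tw (p := p) E' y ^ p := fun y => (rt_pow _).symm
    refine ⟨tw (p := p) E', fun y => ?_, fun n x => ?_⟩
    · rw [pow_succ', pow_mul, h1, h3, ← pow_mul]
    · rw [pow_succ, Module.End.mul_apply, h2, N.fr_op _ _ h3, Module.End.mul_apply]

theorem t3 {P : Submodule R AA} (h : ℕ) {ξ ξ' : S ⊗[ZMod p] Module.End R AA}
    (hξ : ∀ y ∈ P, ev (r0 p R AA) ξ (y ^ p ^ h) =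
      (lin p (fr p AA ^ h)).lTensor S (ev (r0 p R AA) ξ' y))
    {n : ℕ} {x : C.X n} (hx : x ∈ N.NS P n) :
    ev (opA N n) ξ (((N.fr.app n : Module.End (ZMod p) (C.X n)) ^ h) x) =
      LinearMap.lTensor S ((N.fr.app n : Module.End (ZMod p) (C.X n)) ^ h) (ev (opA N n) ξ' x) := by
  refine ext_cp fun l => ?_
  rw [cp_lTensor, cp_ev, cp_ev]
  obtain ⟨E', h1, h2⟩ := fr_op_pow N h (cp l ξ)
  rw [opA_apply, opA_apply, h2]
  congr 1
  refine op_congr N (fun y hy => pow_pp_inj h ?_) hx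
  rw [← h1, ← r0_apply (p := p), ← cp_ev, hξ y hy, cp_lTensor, cp_ev, lin_apply, fr_pow_apply,
    r0_apply]

theorem t4 {P P' : Submodule R AA} {ξ : S ⊗[ZMod p] Module.End R AA}
    (h : ∀ y ∈ P, ev (r0 p R AA) ξ y = 0 → y ∈ P') {n : ℕ} {x : C.X n}
    (hx : x ∈ N.NS P n) (h0 : ev (opA N n) ξ x = 0) : x ∈ N.NS P' n := by
  classical
  obtain ⟨ι, t, b, l, e⟩ := exists_repr ξ
  have h1 : ∀ s : Finset ι, x ∈ N.NS (P ⊓ ⨅ i ∈ s, LinearMap.ker (cp (l i) ξ)) n := by
    intro s
    induction s using Finset.induction_on with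
    | empty => simpa using hx
    | insert i s _ ih =>
      have h2 : x ∈ N.NS (LinearMap.ker (cp (l i) ξ)) n := by
        refine (N.NS_comap ⊥ _ n x).1 ?_
        rw [← opA_apply, ← cp_ev, h0, map_zero]
        exact zero_mem _
      refine N.NS_mono _ _ n ?_ (N.NS_inf _ _ n ⟨ih, h2⟩)
      rw [Finset.iInf_insert, inf_assoc, inf_comm (LinearMap.ker _)]
  refine N.NS_mono _ _ n ?_ (h1 t)
  intro y hy
  refine h y hy.1 ?_
  rw [e, map_sum, LinearMap.sum_apply]
  refine Finset.sum_eq_zero fun i hi => ?_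
  have h3 : cp (l i) ξ y = 0 := (Submodule.mem_iInf _).1 ((Submodule.mem_iInf _).1 hy.2 i) hi
  rw [ev_tmul, r0_apply, h3, tmul_zero]

end nf

section inc

variable {S S' : Type} [CommRing S] [Algebra (ZMod p) S] [CommRing S'] [Algebra (ZMod p) S']
  {T : Subalgebra R AA}

@[simp] theorem inc_tmul (s : S) (x : T) :
    inc S T (s ⊗ₜ[ZMod p] x) = s ⊗ₜ[ZMod p] (x : AA) := rfl

theorem cp_inc (l : S →ₗ[ZMod p] ZMod p) (z : S ⊗[ZMod p] T) :
    cp l (inc S T z) = (cp l z : T) := cp_lTensor l _ z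

theorem inc_inj {z z' : S ⊗[ZMod p] T} (h : inc S T z = inc S T z') : z = z' :=
  ext_cp fun l => Subtype.ext (by rw [← cp_inc, h, cp_inc])

theorem inc_rTensor (f : S →ₗ[ZMod p] S') (z : S ⊗[ZMod p] T) :
    inc S' T (f.rTensor T z) = f.rTensor AA (inc S T z) := by
  induction z using TensorProduct.induction_on with
  | zero => simp
  | tmul s v => simp
  | add a b ha hb => simp only [map_add, ha, hb]

theorem inc_one_mul (a : T) (z : S ⊗[ZMod p] T) :
    inc S T ((1 : S) ⊗ₜ[ZMod p] a * z) =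
      LinearMap.lTensor S (LinearMap.mulLeft (ZMod p) (a : AA)) (inc S T z) := by
  induction z using TensorProduct.induction_on with
  | zero => simp
  | tmul s v => simp
  | add a b ha hb => simp only [mul_add, map_add, ha, hb]

theorem inc_smul (s : S) (z : S ⊗[ZMod p] T) : inc S T (s • z) = s • inc S T z := by
  induction z using TensorProduct.induction_on with
  | zero => simp
  | tmul s v => simp [smul_tmul']
  | add a b ha hb => simp only [smul_add, map_add, ha, hb]

theorem inc_lift (α : AA →ₗ[ZMod p] S ⊗[ZMod p] AA) (β : T →ₗ[ZMod p] S ⊗[ZMod p] T)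
    (h : ∀ x : T, α x = inc S T (β x)) (z : S ⊗[ZMod p] T) :
    α.liftBaseChange S (inc S T z) = inc S T (β.liftBaseChange S z) := by
  induction z using TensorProduct.induction_on with
  | zero => simp
  | tmul s v => simp [inc_smul, h]
  | add a b ha hb => simp only [map_add, ha, hb]

theorem inc_mul {O : Type} [AddCommGroup O] [Module (ZMod p) O] (g : O →ₗ[ZMod p] T)
    (w : S ⊗[ZMod p] O) (z : S ⊗[ZMod p] T) :
    (ev (r0 p R AA) ((mu p R AA ∘ₗ T.val.toLinearMap.restrictScalars (ZMod p) ∘ₗ g).lTensor S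
      w)).liftBaseChange S (inc S T z) = inc S T (g.lTensor S w * z) := by
  induction z using TensorProduct.induction_on with
  | zero => simp
  | tmul s' x =>
    induction w using TensorProduct.induction_on with
    | zero => simp
    | tmul s o => simp [smul_tmul', mul_comm s s']
    | add a b ha hb =>
      rw [map_add (g.lTensor S), add_mul, map_add (inc S T), ← ha, ← hb]
      simp
  | add a b ha hb => simp only [mul_add, map_add, ha, hb]

end inc

end Trf

open Trf in
theorem trf (p : ℕ) [hp : Fact p.Prime] : TRF p := by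
  intro R AA _ _ _ _ _ _ _ h v G Φ H C N a T0 T1 T M A n D B w hfin hAM hT1 ⟨e, he⟩ hst ha hB hw
    hloss hgam
  have hM : ∀ {S : Type} [CommRing S] [Algebra (ZMod p) S] {τ : H.Pt S}, p ^ A • τ = 0 →
      p ^ M • τ = 0 := fun hτ => by
    obtain ⟨c, rfl⟩ := Nat.exists_eq_add_of_le hAM
    rw [pow_add, mul_comm, mul_smul, hτ, smul_zero]
  have hs : ∀ {S : Type} [CommRing S] [Algebra (ZMod p) S] {τ : H.Pt S} (s : ℕ), p ^ M • τ = 0 →
      p ^ M • s • τ = 0 := fun s hτ => by rw [smul_comm, hτ, smul_zero]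
  obtain ⟨ξ, hξ⟩ := exists_xi (R := R) (inc (H.O M 1) T ∘ₗ (D.al (H.u M 1 0)).toLinearMap ∘ₗ
    e.restrictScalars (ZMod p)) (fun r y => by
      have h1 := D.bot (H.u M 1 0) (H.u_tor M 1 0) (algebraMap R T r) (T0.algebraMap_mem r)
      change inc _ T (D.al _ (e (r • y))) = LinearMap.lTensor _ _ (inc _ T (D.al _ (e y)))
      rw [map_smul, Algebra.smul_def, map_mul, h1, inc_one_mul]
      rfl)
  let X : ∀ {S : Type} [CommRing S] [Algebra (ZMod p) S], H.Pt S →
      S ⊗[ZMod p] Module.End R AA := fun τ => (H.lift M fun _ : Fin 1 => τ).toLinearMap.rTensor _ ξ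
  have hX' : ∀ {S : Type} [CommRing S] [Algebra (ZMod p) S] {τ : H.Pt S}, p ^ M • τ = 0 →
      ∀ y, ev (r0 p R AA) (X τ) y = inc S T (D.al τ (e y)) := fun {S} _ _ τ hτ y => by
    rw [ev_rTensor, hξ]
    change LinearMap.rTensor _ _ (inc _ T (D.al _ (e y))) = _
    rw [← inc_rTensor, D.nat _ _ (H.u_tor M 1 0), H.lift_u M _ fun _ => hτ]
  have hX : ∀ {S : Type} [CommRing S] [Algebra (ZMod p) S] {τ : H.Pt S}, p ^ M • τ = 0 →
      ∀ y (hy : y ∈ T), ev (r0 p R AA) (X τ) y = inc S T (D.al τ ⟨y, hy⟩) :=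
    fun {S} _ _ τ hτ y hy => by rw [hX' hτ, ← he ⟨y, hy⟩]
  let μ : H.O A 1 →ₗ[ZMod p] Module.End R AA :=
    mu p R AA ∘ₗ T.val.toLinearMap.restrictScalars (ZMod p) ∘ₗ D.gam
  have hle : ∀ {b t x}, x ∈ N.NS (Subalgebra.toSubmodule T ⊓ B b) t →
      x ∈ N.NS (Subalgebra.toSubmodule T) t := fun hx => N.NS_mono _ _ _ inf_le_left hx
  refine ⟨{
    al := fun τ t => ev (opA N t) (X τ)
    nat := fun f τ hτ b t x hx => ?_
    zero := fun b t x hx => ?_
    add := fun τ τ' hτ hτ' b t x hx => ?_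
    loss := fun τ hτ b t x hx => ?_
    chain := fun τ hτ b t x hx => ?_
    fro := fun τ hτ b t x hx => ?_
    cen := fun τ hτ c hc b t x hx => ?_
    th := fun t => (opA N t).toLinearMap ∘ₗ μ
    th_one := fun b t x hx => ?_
    th_loss := fun f b t x hx => ?_
    th_eqv := fun τ hτ f b t x hx => ?_
    fix := fun τ hτ b t x hx => ?_
    inv := fun b t x hx h0 => ?_ }⟩
  · rw [← ev_rTensor]
    refine t0 N (fun y hy => ?_) (hle hx)
    rw [ev_rTensor, hX hτ y hy, hX (by rw [← map_nsmul, hτ, map_zero]) y hy, ← inc_rTensor,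
      D.nat f τ hτ]
  · rw [← ev_one (opA N t)]
    refine t0 N (fun y hy => ?_) (hle hx)
    rw [hX (smul_zero _) y hy, D.zero, ev_one, inc_tmul]
  · rw [← ev_mul]
    refine t0 N (fun y hy => ?_) (hle hx)
    rw [ev_mul, hX (by rw [smul_add, hτ, hτ', add_zero]) y hy, hX hτ' y hy, D.add τ τ' hτ hτ',
      inc_lift _ (D.al τ).toLinearMap fun z => hX hτ z z.2]
  · refine t1 N (fun y hy l => ?_) hx
    rw [hX hτ y hy.1, cp_inc]
    exact ⟨Subtype.prop _, mem_bc.1 (hloss _ τ hτ b ⟨y, hy.1⟩ hy.2) l⟩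
  · refine t2 N hst (fun g y hy => ?_) (hle hx)
    rw [hX hτ y hy, hX hτ _ (hst g y hy)]
    exact D.eqv τ hτ g _ _ rfl
  · refine t3 N h (fun y hy => ?_) (hle hx)
    rw [hX (hs p hτ) y hy, hX hτ _ (T.pow_mem hy _)]
    exact D.fro τ hτ _ _ (fr_pow_apply h y).symm
  · have h1 : (1 + p ^ c) % p = 1 := by
      obtain ⟨c, rfl⟩ := Nat.exists_eq_add_of_le' hc
      rw [pow_succ, Nat.add_mul_mod_self_right, Nat.mod_eq_of_lt one_lt_p]
    rw [← opA_apply, ← ev_mul_one, ← ev_one_mul]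
    refine t0 N (fun y hy => ?_) (hle hx)
    rw [ev_mul_one, ev_one_mul, hX (hs _ hτ) y hy]
    exact (hX hτ _ (ha _ y hy)).trans (D.cen τ hτ _ h1 _ _ rfl)
  · have h1 : μ 1 = 1 := LinearMap.ext fun y => by
      change (D.gam 1 : AA) * y = y
      rw [D.gam_one, OneMemClass.coe_one, one_mul]
    change N.op t (μ 1) x = x
    rw [h1, map_one, Module.End.one_apply]
  · refine (N.NS_comap _ _ t x).2 (N.NS_mono _ _ t ?_ hx)
    intro y hy
    exact ⟨T.mul_mem (D.gam f).2 hy.1, hgam f b y hy.2⟩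
  · rw [map₂_eq, ← ev_mul]
    refine (ev_mul_one (opA N t) (X τ) (μ f) x).symm.trans (t0 N (fun y hy => ?_) (hle hx))
    rw [ev_mul_one, ev_mul, hX (hM hτ) y hy, inc_mul, ← D.gam_eqv τ hτ, ← map_mul]
    exact hX (hM hτ) _ (T.mul_mem (D.gam f).2 hy)
  · rw [← ev_one (opA N t)]
    refine t0 N (fun y hy => ?_) hx
    rw [hX (hM hτ) y (hT1 hy.1), D.fix τ hτ _ hy.1, ev_one, inc_tmul]
  · refine t4 N (ξ := X (H.u A 1 0) - 1) (fun y hy h1 => ?_) hx ?_
    · rw [map_sub, LinearMap.sub_apply, sub_eq_zero, hX (hM (H.u_tor A 1 0)) y hy.1, ev_one] at h1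
      exact ⟨D.inv ⟨y, hy.1⟩ (inc_inj h1), hB (le_add_of_nonneg_right hw) hy.2⟩
    · rw [map_sub, LinearMap.sub_apply, ev_one, sub_eq_zero]
      exact h0

end P261.P
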