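import Vale.Agent.P261Z.P.Bn
import Vale.Agent.P261Z.P.Apx
import Vale.Agent.P261Z.P.Retr
import Vale.Agent.P261Z.P.Dec
import Vale.Agent.P261Z.P.Trf
import Vale.Agent.P261Z.P.Conj
import Vale.Agent.P261Z.P.Nvl

/-! # P261, block P: reduction to the abstract core -/

namespace P261.P

theorem nvl_of {p : ℕ} [Fact p.Prime] (main : MAIN p) : NVL p :=
  nvl (bn (apx p) (retr p) (loss p) (trf p) (conj p) main)

end P261.P
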