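import Vale.Agent.P261Z.P.Defs

/-!
# P261, block P: elementary consequences of `NF`
-/

noncomputable section

namespace P261.P

open P261.Cs

variable {p : ℕ} [hp : Fact p.Prime] {R AA : Type} [CommRing R] [CommRing AA] [Algebra R AA]
  [Ch p AA]

theorem rtM_zero (P : Submodule R AA) : rtM p 0 P = P := by
  ext x
  rw [mem_rtM, pow_zero, pow_one]

theorem rtM_rtM (a b : ℕ) (P : Submodule R AA) : rtM p a (rtM p b P) = rtM p (a + b) P := by
  ext x
  rw [mem_rtM, mem_rtM, mem_rtM, ← pow_mul, ← pow_add]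

namespace NF

variable {G : Type} {Φ : G → AA →+* AA} {C : Cos.{0} (ZMod p)} (N : NF p R Φ C)
  {P P' : Submodule R AA} {E E' : Module.End R AA} {n : ℕ} {x : C.X n}

theorem mem_top (x : C.X n) : x ∈ N.NS ⊤ n := by
  rw [N.NS_top]
  trivial

theorem op_mem (h : ∀ y ∈ P, E y ∈ P') (hx : x ∈ N.NS P n) : N.op n E x ∈ N.NS P' n :=
  (N.NS_comap _ _ n x).2 (N.NS_mono _ _ n h hx)

theorem op_eq (h : ∀ y ∈ P, E y = E' y) (hx : x ∈ N.NS P n) : N.op n E x = N.op n E' x := by
  have h1 : N.op n (E - E') x ∈ N.NS ⊥ n :=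
    N.op_mem (fun y hy => by rw [LinearMap.sub_apply, h y hy, sub_self]; exact zero_mem _) hx
  rwa [N.NS_bot, Submodule.mem_bot, map_sub, LinearMap.sub_apply, sub_eq_zero] at h1

theorem op_self (h : ∀ y ∈ P, E y = y) (hx : x ∈ N.NS P n) : N.op n E x = x := by
  rw [N.op_eq (E' := 1) h hx, map_one, Module.End.one_apply]

theorem op_op (E E' : Module.End R AA) (x : C.X n) :
    N.op n E (N.op n E' x) = N.op n (E * E') x := by
  rw [map_mul, Module.End.mul_apply]

theorem NS_d (hP : Stb Φ P) (hx : x ∈ N.NS P n) : C.d n x ∈ N.NS P (n + 1) := by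
  rw [Cos.d, LinearMap.sum_apply]
  exact sum_mem fun i _ => Submodule.smul_mem _ _ (N.NS_map P hP _ x hx)

theorem op_d (hP : Stb Φ P) (h : ∀ g, ∀ y ∈ P, E (Φ g y) = Φ g (E y)) (hx : x ∈ N.NS P n) :
    N.op (n + 1) E (C.d n x) = C.d n (N.op n E x) := by
  simp only [Cos.d, LinearMap.sum_apply, map_sum, LinearMap.smul_apply, map_smul,
    N.op_map P hP E h _ x hx]

theorem op_d' (h : ∀ g y, E (Φ g y) = Φ g (E y)) (x : C.X n) :
    N.op (n + 1) E (C.d n x) = C.d n (N.op n E x) :=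
  N.op_d (P := ⊤) (fun _ _ _ => trivial) (fun g y _ => h g y) (N.mem_top x)

/-- the Frobenius map as an endomorphism -/
abbrev fe (n : ℕ) : Module.End (ZMod p) (C.X n) := N.fr.app n

theorem frp_NS (k : ℕ) (P : Submodule R AA) (x : C.X n) :
    (N.fe n ^ k) x ∈ N.NS P n ↔ x ∈ N.NS (rtM p k P) n := by
  induction k generalizing x with
  | zero => rw [rtM_zero, pow_zero, Module.End.one_apply]
  | succ k ih => rw [pow_succ, Module.End.mul_apply, ih, N.fr_NS, rtM_rtM, add_comm]

theorem frp_op (h : ∀ y, E (y ^ p) = E y ^ p) (k : ℕ) (x : C.X n) :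
    N.op n E ((N.fe n ^ k) x) = (N.fe n ^ k) (N.op n E x) := by
  induction k with
  | zero => rfl
  | succ k ih => rw [pow_succ', Module.End.mul_apply, Module.End.mul_apply, N.fr_op E E h, ih]

theorem frp_d (k : ℕ) (x : C.X n) : (N.fe (n + 1) ^ k) (C.d n x) = C.d n ((N.fe n ^ k) x) := by
  induction k with
  | zero => rfl
  | succ k ih => rw [pow_succ', pow_succ', Module.End.mul_apply, Module.End.mul_apply, ih, N.fr.map_d]

theorem frp_bij (k n : ℕ) : Function.Bijective (N.fe n ^ k :) := by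
  rw [Module.End.coe_pow]
  exact (N.fr_bij n).iterate k

theorem mem_inf (hx : x ∈ N.NS P n) (hx' : x ∈ N.NS P' n) : x ∈ N.NS (P ⊓ P') n :=
  N.NS_inf _ _ n ⟨hx, hx'⟩

theorem NS_fix {ι : Type} [Finite ι] (E : ι → Module.End R AA) (hx : x ∈ N.NS P n)
    (h : ∀ i, N.op n (E i) x = x) (hP : ∀ y ∈ P, (∀ i, E i y = y) → y ∈ P') : x ∈ N.NS P' n := by
  classical
  have := Fintype.ofFinite ι
  have key : ∀ s : Finset ι, x ∈ N.NS (P ⊓ ⨅ i ∈ s, LinearMap.ker (E i - 1)) n := by
    intro s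
    induction s using Finset.induction with
    | empty => simpa using hx
    | insert i s _ ih =>
      rw [Finset.iInf_insert, inf_left_comm]
      refine N.mem_inf ((N.NS_comap ⊥ _ n x).1 ?_) ih
      rw [map_sub, map_one, LinearMap.sub_apply, h, Module.End.one_apply, sub_self]
      exact zero_mem _
  refine N.NS_mono _ _ n ?_ (key Finset.univ)
  rintro y ⟨h1, h2⟩
  refine hP y h1 fun i => ?_
  simp only [SetLike.mem_coe, Submodule.mem_iInf] at h2
  exact sub_eq_zero.1 (h2 i (Finset.mem_univ i))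

end NF

end P261.P
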