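import Vale.Agent.P261Z.P.Sk
import Vale.Agent.P261Z.P.NfL
import Vale.Agent.P261Z.Cs.Htpy

/-!
# P261, block P: the instance of the abstract core
-/

noncomputable section

namespace P261.P

open scoped TensorProduct
open P261.PC P261.Cs

variable {p : ℕ} [hp : Fact p.Prime] {R AA : Type} [CommRing R] [CommRing AA] [Algebra R AA]
  [Algebra (ZMod p) R] [Algebra (ZMod p) AA] [IsScalarTower (ZMod p) R AA] [Pf p AA] {h : ℕ} {v : R}
  {G : Type} [Group G] {φ : G → R →+* R} {Φ : G →* (AA →+* AA)} {Γ : Type} [Group Γ] {H : GF p}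

namespace Bn

variable (I : IgD p h v AA φ Φ Γ H)

/-- the action of `Γ` by linear maps -/
def γl : Γ →* Module.End R AA where
  toFun δ := (I.γ δ).toLinearMap
  map_one' := by rw [map_one]; rfl
  map_mul' a b := by rw [map_mul]; rfl

theorem γl_apply (δ : Γ) (x : AA) : γl I δ x = I.γ δ x := rfl

theorem γ_vi (δ : Γ) : I.γ δ I.vi = I.vi := by
  have h1 := congrArg (I.γ δ) I.v_vi
  rw [map_mul, AlgHom.commutes, map_one] at h1
  linear_combination I.vi * h1 - I.γ δ I.vi * I.v_vi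

theorem γ_inv (δ : Γ) (x : AA) : I.γ δ (I.γ δ⁻¹ x) = x := by
  rw [← AlgHom.mul_apply, ← map_mul, mul_inv_cancel, map_one, AlgHom.one_apply]

theorem vi_pow (N : ℕ) : algebraMap R AA v ^ N * I.vi ^ N = 1 := by
  rw [← mul_pow, I.v_vi, one_pow]

theorem vi_T (j : ℕ) : I.vi ∈ I.T j := I.T_mono (Nat.zero_le j) I.vi_mem

variable (F : FlD p v I.vi (fun g => Φ g) fun δ => I.γ δ)

theorem pole_mem {N : ℕ} {x : AA} (hx : IsIntegral R (algebraMap R AA v ^ N * x)) :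
    x ∈ F.b.F (N * F.e) := by
  have := Fil.mul_le (F.int _ hx) (Fil.pow_mem F.vi_mem N) (zero_add _).le
  rwa [mul_right_comm, vi_pow, one_mul] at this

theorem M_mono {b b' : ℝ} (hb : b ≤ b') : F.M b ≤ F.M b' := fun _ hy => Fil.le (F := F.b) hy hb

omit [Pf p AA] in
theorem sub_mono {T : Subalgebra R AA} {P P' : Submodule R AA} (h : P ≤ P') :
    sub p T P ≤ sub p T P' := fun _ hy => h hy

/-- level `n`, Igusa level `j`, height `b` -/
def Q (n j : ℕ) (b : ℝ) : Submodule R AA := Subalgebra.toSubmodule (rtA p n (I.T j)) ⊓ F.M b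

theorem mem_Q {n j : ℕ} {b : ℝ} {x : AA} : x ∈ Q I F n j b ↔ x ^ p ^ n ∈ I.T j ∧ x ∈ F.b.F b :=
  Iff.rfl

theorem Q_zero (j : ℕ) (b : ℝ) : Q I F 0 j b = Subalgebra.toSubmodule (I.T j) ⊓ F.M b := by
  ext x
  rw [mem_Q, pow_zero, pow_one]
  rfl

theorem rtM_Q (k n j : ℕ) (b : ℝ) : rtM p k (Q I F n j (p ^ k * b)) = Q I F (k + n) j b := by
  ext x
  rw [mem_rtM, mem_Q, mem_Q, Fil.pow_pow_iff, ← pow_mul, ← pow_add]

theorem Q_mono {n n' j j' : ℕ} {b b' : ℝ} (hn : n ≤ n') (hj : j ≤ j') (hb : b ≤ b') :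
    Q I F n j b ≤ Q I F n' j' b' := fun x hx => by
  obtain ⟨k, rfl⟩ := Nat.exists_eq_add_of_le hn
  refine ⟨?_, Fil.le hx.2 hb⟩
  show x ^ p ^ (n + k) ∈ I.T j'
  rw [pow_add, pow_mul]
  exact pow_mem (I.T_mono hj hx.1) _

theorem Q_stb (n j : ℕ) (b : ℝ) : Stb (fun g => Φ g) (Q I F n j b) := fun g x hx =>
  ⟨by
    show Φ g x ^ p ^ n ∈ I.T j
    rw [← map_pow]
    exact I.T_Φ j g _ hx.1, F.b_Φ g b x hx.2⟩

theorem Q_γ (n j : ℕ) (b : ℝ) (δ : Γ) : ∀ x ∈ Q I F n j b, γl I δ x ∈ Q I F n j b := fun x hx =>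
  ⟨by
    show I.γ δ x ^ p ^ n ∈ I.T j
    rw [← map_pow]
    exact I.T_γ j δ _ hx.1, F.b_γ δ b x hx.2⟩

variable {C : Cos.{0} (ZMod p)} (N : NF p R (fun g => Φ g) C)

theorem exh (hh : 1 ≤ h) {b : ℝ} {n : ℕ} {x : C.X n} (hx : x ∈ N.NS (F.M b) n) (j0 : ℕ) :
    ∃ L j, x ∈ N.NS (Q I F (h * L) (j + j0) b) n := by
  obtain ⟨i, hi⟩ := N.NS_sup (fun i => Subalgebra.toSubmodule (rtA p i (I.T i)))
    (monotone_nat_of_le_succ fun i y hy => by
      show y ^ p ^ (i + 1) ∈ I.T (i + 1)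
      rw [pow_succ, pow_mul]
      exact pow_mem (I.T_mono i.le_succ hy) _)
    (fun i g y hy => by
      show Φ g y ^ p ^ i ∈ I.T i
      rw [← map_pow]
      exact I.T_Φ i g _ hy)
    (fun y => by
      obtain ⟨n, j, hy⟩ := I.T_exh y
      refine ⟨n + j, ?_⟩
      show y ^ p ^ (n + j) ∈ I.T (n + j)
      rw [pow_add, pow_mul]
      exact pow_mem (I.T_mono (Nat.le_add_left j n) hy) _) n x
  exact ⟨i, i, N.NS_mono _ _ n (Q_mono I F (Nat.le_mul_of_pos_left i hh) (Nat.le_add_right i j0)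
    le_rfl) (N.mem_inf hi hx)⟩

theorem inj0 (hG : (fa I F N).Good (p ^ h)) (y : C.X 0) (hy : C.d 0 y = 0) : y = 0 := by
  obtain ⟨i, hi⟩ := N.NS_sup (fun i : ℕ => F.M (i * F.e))
    (fun i i' hi y hy => Fil.le hy (mul_le_mul_of_nonneg_right (Nat.cast_le.2 hi) F.e_nonneg))
    (fun i g => F.b_Φ g _) (fun y => (I.loc y).imp fun _ h => pole_mem I F h) 0 y
  obtain ⟨ρ, -, hρ⟩ := (hG 0).1
  exact hρ _ 1 (mul_nonneg (Nat.cast_nonneg i) F.e_nonneg) one_pos y hi hy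

/-- the ambient complex -/
def base (hh : 1 ≤ h) (hG : (fa I F N).Good (p ^ h)) (j0 : ℕ) : Base p C.X where
  d := C.d
  dd := Cs.dd _ C
  inj0 := inj0 I F N hG
  fr t := N.fe t ^ h
  fr_bij := N.frp_bij h
  fr_d t x := N.frp_d h x
  q := p ^ h
  two_le := two_le_p.trans (le_self_pow₀ (by linarith [two_le_p (p := p)]) (by omega))
  N j b := N.NS (Q I F 0 (j + j0) b)
  mono hj hb t := N.NS_mono _ _ t (Q_mono I F le_rfl (Nat.add_le_add_right hj j0) hb)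
  N_d j b t x hx := N.NS_d (Q_stb I F _ _ _) hx
  N_fr j b t x hx := by
    rw [N.frp_NS, rtM_Q]
    exact N.NS_mono _ _ t (Q_mono I F (Nat.zero_le _) le_rfl le_rfl) hx

variable (hh : 1 ≤ h) (hG : (fa I F N).Good (p ^ h)) (j0 : ℕ)

theorem base_NL (L j : ℕ) (b : ℝ) (t : ℕ) :
    (base I F N hh hG j0).NL L j b t = N.NS (Q I F (h * L) (j + j0) b) t := by
  ext x
  show ((N.fe t ^ h) ^ L) x ∈ N.NS (Q I F 0 (j + j0) (((p : ℝ) ^ h) ^ L * b)) t ↔ _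
  rw [← pow_mul, ← pow_mul, N.frp_NS, rtM_Q, add_zero]

theorem map_Q (k n j : ℕ) (b : ℝ) (t : ℕ) :
    (N.NS (Q I F (k + n) j (b / p ^ k)) t).map (N.fe t ^ k) = N.NS (Q I F n j b) t := by
  have e : Q I F (k + n) j (b / p ^ k) = rtM p k (Q I F n j b) := by
    rw [← rtM_Q, mul_div_cancel₀ _ (pow_pos p_pos' k).ne']
  ext x
  obtain ⟨y, rfl⟩ := (N.frp_bij k t).2 x
  rw [e, N.frp_NS]
  exact ⟨fun ⟨z, hz, e⟩ => (N.frp_bij k t).1 e ▸ hz, fun hy => ⟨y, hy, rfl⟩⟩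

/-- the action of `Γ` on the complex -/
def ρ (t : ℕ) : Γ →* Module.End (ZMod p) (C.X t) := (N.op t).toMonoidHom.comp (γl I)

theorem ρ_apply (t : ℕ) (δ : Γ) : ρ I N t δ = N.op t (γl I δ) := rfl

theorem trace {j j' : ℕ} (hj : j ≤ j') {t : AA} {M : ℕ}
    (ht : ∑ᶠ δ : I.Gs j ⧸ (I.Gs j').subgroupOf (I.Gs j), I.γ (δ.out : I.Gs j) t =
      algebraMap R AA v ^ M) (n : ℕ) (x : C.X n) :
    trc (ρ I N n) (I.Gs j) (I.Gs j') (N.op n (LinearMap.mulLeft R (t * I.vi ^ M))) x = x := by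
  have := I.Gs_fin j j' hj
  have := Subgroup.fintypeQuotientOfFiniteIndex (H := (I.Gs j').subgroupOf (I.Gs j))
  rw [finsum_eq_sum_of_fintype] at ht
  rw [trc, finsum_eq_sum_of_fintype]
  simp only [ρ_apply, N.op_op]
  rw [← LinearMap.sum_apply, ← map_sum]
  refine N.op_self (P := ⊤) (fun y _ => ?_) (N.mem_top x)
  simp only [LinearMap.sum_apply, Module.End.mul_apply, γl_apply, LinearMap.mulLeft_apply, map_mul,
    map_pow, γ_vi, γ_inv]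
  rw [← Finset.sum_mul, ← Finset.sum_mul, ht, vi_pow, one_mul]

theorem invar {j j' : ℕ} (hj : j ≤ j') {b : ℝ} {n : ℕ} {x : C.X n}
    (hx : x ∈ N.NS (Q I F 0 j' b) n) (hf : ∀ g ∈ I.Gs j, ρ I N n g x = x) :
    x ∈ N.NS (Q I F 0 j b) n := by
  have := I.Gs_fin j j' hj
  refine N.NS_fix (fun δ : I.Gs j ⧸ (I.Gs j').subgroupOf (I.Gs j) => γl I (δ.out : I.Gs j)) hx
    (fun δ => hf _ δ.out.2) fun y hy h1 => ⟨?_, hy.2⟩
  have hy1 : y ∈ I.T j' := by simpa using ((mem_Q I F).1 hy).1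
  show y ^ p ^ 0 ∈ I.T j
  rw [pow_zero, pow_one]
  refine I.T_inv j j' hj y hy1 fun g hg => ?_
  obtain ⟨u, hu⟩ := QuotientGroup.mk_out_eq_mul ((I.Gs j').subgroupOf (I.Gs j)) ⟨g, hg⟩
  have h2 := h1 (QuotientGroup.mk ⟨g, hg⟩)
  rwa [hu, γl_apply, Subgroup.coe_mul, map_mul, AlgHom.mul_apply,
    I.T_fix j' ((u : I.Gs j) : Γ) u.2 y hy1] at h2

include hG in
theorem hc (apx : APX p) (t : ℕ) : ∃ (r c : ℝ) (e0 : ℕ), ∀ e, e0 ≤ e → ∀ b, 0 ≤ b → ∀ j,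
    ∀ x ∈ N.NS (Q I F 0 j b) (t + 1), C.d _ x = 0 →
      ∃ y ∈ N.NS (F.M (b + r * b / ((p : ℝ) ^ h) ^ e + c)) t,
        C.d t y = ρ I N _ (I.a (1 + p ^ e)) x - x := by
  obtain ⟨r, m, -, hr⟩ := (hG (t + 1)).2
  refine ⟨r * ((p : ℝ) ^ h) ^ m, 1, m + 2, fun e he b hb j x hx hd => ?_⟩
  obtain ⟨e, rfl⟩ := Nat.exists_eq_add_of_le' (le_trans (Nat.le_add_right m 2) he)
  obtain ⟨s, hs, hs'⟩ := apx m e j (by omega)
  have h1 : ∀ {s k : ℕ}, s % p = 1 → s ^ k % p = 1 := fun {s k} hs => by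
    rw [Nat.pow_mod, hs, one_pow, Nat.mod_eq_of_lt one_lt_p]
  have h2 : s % p = 1 := by
    rw [← Nat.mod_mod_of_dvd s (dvd_pow_self p (show e ≠ 0 by omega)), hs, Nat.mod_eq_of_lt one_lt_p]
  have h3 : (1 + p ^ (e + m)) % p = 1 := by
    rw [show e + m = e + m - 1 + 1 by omega, pow_succ, Nat.add_mul_mod_self_right,
      Nat.mod_eq_of_lt one_lt_p]
  obtain ⟨y, hy, e1⟩ := hr e s (by omega) hs b 1 hb one_pos x
    (N.NS_mono _ _ _ inf_le_right hx) hd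
  refine ⟨y, ?_, e1.trans ?_⟩
  · have : b + r * ((p : ℝ) ^ h) ^ m * b / ((p : ℝ) ^ h) ^ (e + m) + 1 =
        b + r * b / ((p ^ h : ℕ) : ℝ) ^ e + 1 := by
      have := p_pos' (p := p)
      push_cast
      rw [pow_add]
      field_simp
    rw [this]
    exact hy
  · show N.op _ (γl I (I.a (s ^ p ^ m))) x - x = N.op _ _ x - x
    congr 1
    refine N.op_eq (fun z hz => ?_) hx
    have hz1 : z ∈ I.T j := by simpa using ((mem_Q I F).1 hz).1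
    have h4 := I.T_fix j _ (I.a_cong _ _ j (h1 h2) h3 hs') z hz1
    conv_lhs => rw [← h4]
    rw [γl_apply, γl_apply, map_mul, AlgHom.mul_apply, γ_inv]

theorem td (retr : RETR p) (trf : TRF p) (conj : CONJ p) {j M A : ℕ} (hA : A ≤ M)
    (hj : M + I.c0 ≤ j + j0) {w : ℝ} (hw : 0 ≤ w)
    (hl : ∀ D : RT H (fun g => Φ g) (fun s => (I.γ (I.a s) : AA →+* AA)) v (I.T (j + j0))
      (rtA p (h * (M - A)) (I.T (j + j0))) (rtA p (h * M) (I.T (j + j0))) h M A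
      (I.D ^ (j + j0 + 1)),
      (∀ (S : Type) [CommRing S] [Algebra (ZMod p) S] (τ : H.Pt S), p ^ M • τ = 0 →
        ∀ (β : ℝ) (x : rtA p (h * M) (I.T (j + j0))), (x : AA) ∈ F.M β →
          D.al τ x ∈ (sub p _ (F.M (β + w / ((p : ℝ) ^ h) ^ M))).baseChange S) ∧
      ∀ f β, ∀ x ∈ F.M β, (D.gam f : AA) * x ∈ F.M (β + w / ((p : ℝ) ^ h) ^ M)) :
    Nonempty (TD H C.d (fun t => N.fe t ^ h) (fun e t => ρ I N t (I.a (1 + p ^ e)))
      ((base I F N hh hG j0).N j) ((base I F N hh hG j0).NA A j) M A w) := by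
  have hq : (0 : ℝ) < (p : ℝ) ^ h := pow_pos p_pos' h
  obtain ⟨D⟩ := I.td (j + j0) M A hA hj
  obtain ⟨D1⟩ := trf R AA h v G _ H C N (fun s => I.γ (I.a s)) _ _ _ M A _ D F.M
    (w / ((p : ℝ) ^ h) ^ M) (I.fin M) hA
    (fun x hx => by
      obtain ⟨k, hk⟩ := Nat.exists_eq_add_of_le (Nat.mul_le_mul_left h (Nat.sub_le M A))
      rw [mem_rtA, hk, pow_add, pow_mul]
      exact pow_mem (mem_rtA.1 hx) _)
    (retr R AA h v G φ Φ Γ H I _ _ (by omega))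
    (fun g x hx => by
      show Φ g x ^ p ^ _ ∈ I.T _
      rw [← map_pow]
      exact I.T_Φ _ g _ hx)
    (fun s x hx => by
      rw [mem_rtA, ← map_pow]
      exact I.T_γ _ _ _ hx)
    (fun _ _ hb _ hx => Fil.le hx hb) (div_nonneg hw (pow_pos hq M).le) (hl D).1 (hl D).2
  obtain ⟨D2⟩ := conj C.X H _ _ _ _ _ M A _ ((p : ℝ) ^ h) M (N.frp_bij h) (fun t x => N.frp_d h x)
    (fun e t x => N.frp_op (fun y => map_pow (I.γ _) y p) h x) hq D1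
  rw [mul_div_cancel₀ _ (pow_pos hq M).ne'] at D2
  have e1 : (fun b t => (N.NS (Q I F (h * M) (j + j0) (b / ((p : ℝ) ^ h) ^ M)) t).map
      ((N.fe t ^ h) ^ M)) = (base I F N hh hG j0).N j := by
    funext b t
    rw [← pow_mul, ← pow_mul]
    exact map_Q I F N (h * M) 0 (j + j0) b t
  have e2 : (fun b t => (N.NS (Q I F (h * (M - A)) (j + j0) (b / ((p : ℝ) ^ h) ^ M)) t).map
      ((N.fe t ^ h) ^ M)) = (base I F N hh hG j0).NA A j := by
    funext b t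
    obtain ⟨k, rfl⟩ := Nat.exists_eq_add_of_le hA
    show _ = (N.NS (Q I F 0 (j + j0) (b / ((p : ℝ) ^ h) ^ A)) t).map ((N.fe t ^ h) ^ A)
    rw [← map_Q I F N (h * k) 0, ← Submodule.map_comp, Nat.add_sub_cancel_left, add_zero, div_div,
      pow_mul, pow_mul, ← pow_add, pow_add (N.fe t ^ h)]
    rfl
  rw [← e1, ← e2]
  exact ⟨D2⟩

theorem bnd (t : ℕ) (b : ℝ) : ∃ b', ∀ L j, ∀ x ∈ (base I F N hh hG j0).NL L j b (t + 1),
    C.d _ x = 0 → ∃ L' j', ∃ y ∈ (base I F N hh hG j0).NL L' j' b' t, C.d t y = x := by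
  obtain ⟨r, -, hr⟩ := (hG (t + 1)).1
  refine ⟨r * max b 0 + 1, fun L j x hx hd => ?_⟩
  rw [base_NL] at hx
  obtain ⟨y, hy, e⟩ := hr (max b 0) 1 (le_max_right _ _) one_pos x
    (N.NS_mono _ (F.M (max b 0)) _ (fun z hz => Fil.le ((mem_Q I F).1 hz).2 (le_max_left _ _)) hx)
    hd
  obtain ⟨L', j', hy'⟩ := exh I F N hh hy j0
  exact ⟨L', j', y, by rwa [base_NL], e⟩

theorem hc' (apx : APX p) (t : ℕ) : ∃ (r c : ℝ) (e0 : ℕ), ∀ e, e0 ≤ e → ∀ b, 0 ≤ b → ∀ j,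
    ∀ x ∈ N.NS (Q I F 0 (j + j0) b) (t + 1), C.d _ x = 0 → ∃ L' j',
      ∃ y ∈ (base I F N hh hG j0).NL L' j' (b + r * b / ((p : ℝ) ^ h) ^ e + c) t,
        C.d t y = ρ I N _ (I.a (1 + p ^ e)) x - x := by
  obtain ⟨r, c, e0, hr⟩ := hc I F N hG apx t
  refine ⟨r, c, e0, fun e he b hb j x hx hd => ?_⟩
  obtain ⟨y, hy, e1⟩ := hr e he b hb _ x hx hd
  obtain ⟨L', j', hy'⟩ := exh I F N hh hy j0
  exact ⟨L', j', y, by rwa [base_NL], e1⟩

theorem tr {W w : ℝ} (hW : 1 ≤ W) (hWe : F.e * I.D ≤ W) (hWD : (I.D : ℝ) ≤ W) {j j' : ℕ}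
    (hj : j ≤ j') (hw : W ^ (j' + j0 + 1) ≤ w) (t : ℕ) :
    ∃ μ : Module.End (ZMod p) (C.X t), ∀ L b, ∀ x ∈ (base I F N hh hG j0).NL L j' b t,
      μ x ∈ (base I F N hh hG j0).NL L j' (b + w) t ∧
        trc (ρ I N t) (I.Gs (j + j0)) (I.Gs (j' + j0)) μ x = x := by
  obtain ⟨τ, h1, h2, M, hM, h3⟩ := I.tr (j + j0) (j' + j0) (by omega)
  refine ⟨_, fun L b x hx => ⟨?_, trace I N (by omega) h3 t x⟩⟩
  rw [base_NL] at hx ⊢
  refine N.op_mem (fun y hy => ⟨?_, ?_⟩) hx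
  · show (τ * I.vi ^ M * y) ^ p ^ _ ∈ I.T _
    rw [mul_pow]
    exact mul_mem (pow_mem (mul_mem h1 (pow_mem (vi_T I _) _)) _) hy.1
  · have h4 : (M : ℝ) * F.e ≤ W ^ (j' + j0 + 1) := by
      calc (M : ℝ) * F.e ≤ (I.D : ℝ) ^ (j' + j0 + 1) * F.e :=
          mul_le_mul_of_nonneg_right (by exact_mod_cast hM) F.e_nonneg
        _ = (I.D : ℝ) ^ (j' + j0) * (F.e * I.D) := by ring
        _ ≤ W ^ (j' + j0) * W := mul_le_mul (pow_le_pow_left₀ (Nat.cast_nonneg _) hWD _) hWe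
          (mul_nonneg F.e_nonneg (Nat.cast_nonneg _)) (by positivity)
        _ = _ := (pow_succ _ _).symm
    have h5 : τ * I.vi ^ M * y ∈ F.b.F (b + w) :=
      Fil.mul_le (Fil.mul_le (F.int _ h2) (Fil.pow_mem F.vi_mem M) le_rfl) hy.2 (by linarith)
    exact h5

omit hp in
theorem num {q W : ℝ} (hq : 1 ≤ q) (hW : 1 ≤ W) {M j : ℕ} (hM : M ≤ j) :
    q ^ M * W ^ (j + j0 + 1) ≤ (q * W ^ (j0 + 1)) ^ (j + 1) := by
  rw [mul_pow, ← pow_mul W]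
  exact mul_le_mul (pow_le_pow_right₀ hq (by omega)) (pow_le_pow_right₀ hW (by nlinarith))
    (by positivity) (by positivity)

/-- the instance of the core -/
def core (apx : APX p) (w : ℝ) (hw : 1 ≤ w)
    (h1 : ∀ j j', j ≤ j' → ∀ t, ∃ μ : Module.End (ZMod p) (C.X t), ∀ L b,
      ∀ x ∈ (base I F N hh hG j0).NL L j' b t,
      μ x ∈ (base I F N hh hG j0).NL L j' (b + w ^ (j' + 1)) t ∧
        trc (ρ I N t) (I.Gs (j + j0)) (I.Gs (j' + j0)) μ x = x)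
    (h2 : ∀ j M A, A ≤ M → M ≤ j → Nonempty (TD H C.d (fun t => N.fe t ^ h)
      (fun e t => ρ I N t (I.a (1 + p ^ e))) ((base I F N hh hG j0).N j)
      ((base I F N hh hG j0).NA A j) M A (w ^ (j + 1)))) : Core p C.X H Γ where
  toBase := base I F N hh hG j0
  w := w
  one_le := hw
  ρ := ρ I N
  ρ_d t g x := N.op_d' (fun g' y => (I.comm g' g y).symm) x
  ρ_fr t g x := N.frp_op (fun y => map_pow (I.γ g) y p) h x
  ρ_N j b t g x hx := N.op_mem (Q_γ I F _ _ _ g) hx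
  Gs j := I.Gs (j + j0)
  Gs_anti _ _ hj := I.Gs_anti (Nat.add_le_add_right hj j0)
  Gs_normal j := I.Gs_normal _
  Gs_fin j j' hj := I.Gs_fin _ _ (Nat.add_le_add_right hj j0)
  Gs_fix j b t g hg x hx := N.op_self (fun y hy => I.T_fix _ g hg y
    (by simpa using ((mem_Q I F).1 hy).1)) hx
  tr := h1
  Gs_inv j j' hj b t x hx hf := N.NS_mono _ _ t
    (Q_mono I F le_rfl le_rfl (le_add_of_nonneg_right (by positivity)))
    (invar I F N (Nat.add_le_add_right hj j0) hx hf)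
  a e := I.a (1 + p ^ e)
  a_comm e g := I.a_comm _ g
  td := h2
  bnd := bnd I F N hh hG j0
  hc := hc' I F N hh hG j0 apx

end Bn

open Bn in
theorem bn (apx : APX p) (retr : RETR p) (loss : LOSS p) (trf : TRF p) (conj : CONJ p)
    (main : MAIN p) : BN p := by
  intro R AA _ _ _ _ _ _ _ h v G _ φ Φ Γ _ H I F C N hh hG
  refine ⟨inj0 I F N hG, ?_⟩
  obtain ⟨j0, W, hc0, hW, hWe, hWD, hl⟩ := loss R AA h v G φ Φ Γ H I F
  have hq : (1 : ℝ) ≤ (p : ℝ) ^ h := one_le_pow₀ (by linarith [two_le_p (p := p)])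
  have hw1 : 1 ≤ (p : ℝ) ^ h * W ^ (j0 + 1) := one_le_mul_of_one_le_of_one_le hq (one_le_pow₀ hW)
  have hn := fun M j => num j0 (M := M) (j := j) hq hW
  generalize (p : ℝ) ^ h * W ^ (j0 + 1) = w at hw1 hn
  have h2 : ∀ j M A, A ≤ M → M ≤ j → Nonempty (TD H C.d (fun t => N.fe t ^ h)
      (fun e t => ρ I N t (I.a (1 + p ^ e))) ((base I F N hh hG j0).N j)
      ((base I F N hh hG j0).NA A j) M A (w ^ (j + 1))) := by
    intro j M A hA hM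
    refine td I F N hh hG j0 retr trf conj hA (by omega) (by positivity) fun D => ?_
    obtain ⟨h1, h2⟩ := hl (j + j0) (by omega) _ _ _ M A D
    have h3 : ∀ β, F.M (β + W ^ (j + j0 + 1)) ≤ F.M (β + w ^ (j + 1) / ((p : ℝ) ^ h) ^ M) :=
      fun β => M_mono I F (by
        have := (le_div_iff₀' (by positivity)).2 (hn M j hM)
        linarith)
    refine ⟨fun S _ _ τ hτ β x hx => ?_, fun f β x hx => h3 β (h2 f β x hx)⟩
    exact Submodule.baseChange_mono S (sub_mono (h3 β)) (h1 S τ hτ β x hx)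
  have h3 := main C.X H Γ (core I F N hh hG j0 apx w hw1
    (fun j j' hj t => tr I F N hh hG j0 hW hWe hWD hj
      (by simpa using hn 0 j' (Nat.zero_le j')) t) h2)
  refine ⟨j0, fun j hj t b => ?_⟩
  obtain ⟨j, rfl⟩ := Nat.exists_eq_add_of_le' hj
  obtain ⟨b', hb⟩ := h3 t j b
  refine ⟨b', ?_⟩
  rw [← Q_zero, ← Q_zero]
  exact hb

end P261.P
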