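import Vale.Agent.P261Z.PC.Gh

/-!
# P261, block P: descent along a group (statement)
-/

namespace P261.P

/-- `s` is a system of representatives of `H / H'`. -/
def Reps {Γ : Type} [Group Γ] (H H' : Subgroup Γ) (s : Finset Γ) : Prop :=
  (∀ g ∈ s, g ∈ H) ∧ ∀ g ∈ H, ∃! δ, δ ∈ s ∧ δ⁻¹ * g ∈ H'

/-- A complex with an action of `Γ`, stages `S i` and a transition `ps`; `Δ` is the group along
which one descends, the `U i` are small normal subgroups, `tr` is the trace operator. -/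
structure GC (k : Type) [CommRing k] (X : ℕ → Type) [∀ t, AddCommGroup (X t)]
    [∀ t, Module k (X t)] (Γ : Type) [Group Γ] (M : ℕ) : Type 1 where
  /-- the differential -/
  d : ∀ t, X t →ₗ[k] X (t + 1)
  /-- the action -/
  act : ∀ t, Γ →* Module.End k (X t)
  /-- the transition -/
  ps : ∀ t, Module.End k (X t)
  /-- the stages -/
  S : ℕ → ∀ t, Submodule k (X t)
  /-- the group -/
  Δ : Subgroup Γ
  /-- indices -/
  ι : Type
  /-- small subgroups -/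
  U : ι → Subgroup Γ
  ne : Nonempty ι
  nor : ∀ i, (U i).Normal
  le : ∀ i, U i ≤ Δ
  dir : ∀ i i', ∃ i'', U i'' ≤ U i ∧ U i'' ≤ U i'
  smooth : ∀ s t, ∀ x ∈ S s t, ∃ i, ∀ g ∈ U i, act t g x = x
  dd : ∀ t x, d (t + 1) (d t x) = 0
  ad : ∀ t g x, act (t + 1) g (d t x) = d t (act t g x)
  pd : ∀ t x, ps (t + 1) (d t x) = d t (ps t x)
  pa : ∀ t, ∀ g ∈ Δ, ∀ x, ps t (act t g x) = act t g (ps t x)
  Sd : ∀ s t, ∀ x ∈ S s t, d t x ∈ S s (t + 1)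
  Sa : ∀ s t, ∀ g ∈ Δ, ∀ x ∈ S s t, act t g x ∈ S s t
  Sp : ∀ s, s < M → ∀ t, ∀ x ∈ S s t, ps t x ∈ S (s + 1) t
  base : ∀ s, ∀ x ∈ S s 0, d 0 x = 0 → x = 0
  tr : ∀ s, s < M → ∀ i t, ∃ (r : Finset Γ) (μ : Module.End k (X t)), Reps Δ (U i) r ∧
    ∀ x ∈ S s t, (∀ g ∈ U i, act t g x = x) → μ x ∈ S (s + 1) t ∧
      (∀ g ∈ U i, act t g (μ x) = μ x) ∧ ∑ δ ∈ r, act t δ (μ (act t δ⁻¹ x)) = ps t x

/-- The transition vanishes on cohomology in degrees `≤ T + 1`. -/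
def GC.Col {k : Type} [CommRing k] {X : ℕ → Type} [∀ t, AddCommGroup (X t)]
    [∀ t, Module k (X t)] {Γ : Type} [Group Γ] {M : ℕ} (D : GC k X Γ M) (T : ℕ) : Prop :=
  ∀ s, s < M → ∀ t, t ≤ T → ∀ x ∈ D.S s (t + 1), D.d _ x = 0 →
    ∃ u ∈ D.S (s + 1) t, D.ps _ x = D.d _ u

/-- Descent: a power of the transition vanishes on the cohomology of the invariants. -/
def GHG : Prop := ∀ (k : Type) [CommRing k] (X : ℕ → Type) [∀ t, AddCommGroup (X t)]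
  [∀ t, Module k (X t)] (Γ : Type) [Group Γ] (M : ℕ) (D : GC k X Γ M) (T : ℕ), D.Col T →
  ∀ t, t ≤ T → ∀ s, s + (2 * t + 1) ≤ M → ∀ x ∈ D.S s (t + 1), D.d _ x = 0 →
    (∀ g ∈ D.Δ, D.act _ g x = x) → ∃ y ∈ D.S (s + (2 * t + 1)) t,
      (∀ g ∈ D.Δ, D.act _ g y = y) ∧ (D.ps _ ^ (2 * t + 1)) x = D.d _ y

end P261.P
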